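import Crest.Agent.N49.Wt.Cell
import Crest.Agent.N49.Br.Kf
import Crest.Agent.N49.La.Cost

/-!
# Row 49 (helper85): the Kelley–Meka step with witnessed frequencies, pointwise form
-/

set_option autoImplicit false
set_option linter.unusedSectionVars false

open Matrix Finset

noncomputable section

namespace Crest.Agent.N49.Wt

open Po Br

/-- the Kelley–Meka step with witnessed frequencies, pointwise on a Bohr ball -/
def KMP (I : Type) [Fintype I] [DecidableEq I] : Prop :=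
  ∀ (Mx My Ms : Matrix I I ℝ) (θ θ' : I → ℝ) (g ν : (I → ℤ) → ℝ) (P j Q E : ℕ) (γ B : ℝ),
  E = P ^ 68 → 5 ≤ j → 2 ^ j ≤ Q → Q ≤ P → Mx.PosDef → My.PosDef → Ms.PosDef →
  (∀ x, qf Mx x ≤ qf My x) →
  (∀ x, 2 ^ (16 * E) * (Fintype.card I + 2) ^ 7 * qf My x ≤ qf Ms x) →
  (∀ x, 0 ≤ g x) → (∀ x, g x ≤ 2 ^ P * ν x) → (∀ x, 0 ≤ ν x) → (∀ x, ν x ≤ B) →
  1 / 2 ^ P ≤ γ → γ ≤ 2 ^ P → HK Mx My Ms θ θ' g ν P Q γ →
    ∃ (η : Matrix (Fin (wn E)) I ℝ) (S : Set (I → ℤ)) (ρ : (I → ℤ) → ℝ),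
      1 / 2 ^ E ^ 5 ≤ ∑' p, S.indicator (gz (mp Mx My) (θ + θ')) p ∧
      (∀ p ∈ S, ∑' w, gz Ms 0 w * g (p + w) ≤ 2 ^ (6 * E ^ 2)) ∧
      (∀ a, 1 / 2 ^ (6 * E ^ 2) ≤ ‖∑' w, (gz Ms 0 w : ℂ) * ee (-(η a ⬝ᵥ zc w))‖ ∨ ∀ p ∈ S,
        1 / 2 ^ (6 * E ^ 2) ≤ ‖∑' w, (gz Ms 0 w : ℂ) * (g (p + w) * ee (-(η a ⬝ᵥ zc w)))‖) ∧
      Pz ρ ∧ (∀ p, ρ p ≤ 2 ^ (4 * E ^ 5) * gz (cw I • mp Mx My) (θ + θ') p) ∧
      ∀ x, (∀ a, fr (η a) x ≤ 1 / (2 ^ (8 * E ^ 2) * (Fintype.card I + 2))) →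
        qf Ms (zc x) ≤ 1 / (2 ^ (5 * E) * (Fintype.card I + 2)) →
          (1 - 16 / 2 ^ j) * γ ≤ ∑' p, ρ p * g (p + x)

namespace Pw

open Ce Kg La

variable {I d : Type} [Fintype I] [DecidableEq I] [Fintype d] [DecidableEq d]
  {M M' : Matrix I I ℝ} {N : Matrix d d ℝ} {m : ℝ}

theorem wid (hM : M.PosDef) (m0 : 0 < m) (y v : I → ℝ) :
    gs M y ≤ Real.exp (Real.pi * (m * qf M v)) * gs ((m / (m + 1)) • M) (y - v) := by
  have z := qf_nonneg hM (y + (m + 1 - 1) • v)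
  rw [qf_add hM, qf_smul_right, mulVec_smul, dotProduct_smul, smul_eq_mul] at z
  have q : m / (m + 1) * qf M (y - v) ≤ qf M y + m * qf M v := by
    rw [qf_sub hM, div_mul_eq_mul_div, div_le_iff₀ (by positivity)]
    nlinarith
  rw [gs, gs, ← Real.exp_add, Real.exp_le_exp, qf_smul]
  nlinarith [Real.pi_pos]

theorem thw (hM : M.PosDef) (m0 : 0 < m) (θ v : I → ℝ) :
    th M θ ≤ Real.exp (Real.pi * (m * qf M v)) * th ((m / (m + 1)) • M) (θ - v) :=
  hasSum_le (fun n => (wid hM m0 _ (-v)).trans_eq (by rw [qf_neg]; congr 2; abel))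
    (summable_gs hM θ).hasSum ((summable_gs (hM.smul (by positivity)) _).hasSum.mul_left _)

/-- the weight of a cell -/
def cc (M : Matrix I I ℝ) (N : Matrix d d ℝ) (η : Matrix d I ℝ) (w : I → ℤ) : ℝ :=
  gs M (zc w) * th N (η *ᵥ zc w)

theorem cc0 (η : Matrix d I ℝ) (w : I → ℤ) : 0 ≤ cc M N η w :=
  mul_nonneg (gs_pos _ _).le (th_nonneg _ _)

theorem cc1 (hM : M.PosDef) (hN : N.PosDef) (η : Matrix d I ℝ) :
    HasSum (cc M N η) (th (ex M N η) 0) := by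
  rw [th_ex hM hN]
  exact (sm (fun _ => (gs_pos _ _).le) (by simpa using summable_gs hM 0) (fun _ => th_nonneg _ _)
    fun _ => th_le hN _).hasSum

theorem core (hM : M.PosDef) (hN : N.PosDef) (m0 : 0 < m) (η : Matrix d I ℝ) {G : (I → ℤ) → ℝ}
    {B : ℝ} (G0 : ∀ w, 0 ≤ G w) (G1 : ∀ w, G w ≤ B) (x : I → ℤ) (r : d → ℤ) :
    ∑' w, cc M N η w * G w ≤ Real.exp (Real.pi * (m * (qf M (zc x) + qf N (η *ᵥ zc x - zc r)))) *
      ∑' w, cc ((m / (m + 1)) • M) ((m / (m + 1)) • N) η w * G (w + x) := by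
  have s := (Equiv.subRight x).hasSum_iff.2 (sm (cc0 η) (cc1 (hM.smul (a := m / (m + 1))
    (by positivity)) (hN.smul (a := m / (m + 1)) (by positivity)) η).summable
      (fun w => G0 (w + x)) fun _ => G1 _).hasSum
  refine hasSum_le (fun w => ?_) (sm (cc0 η) (cc1 hM hN η).summable G0 G1).hasSum (s.mul_left _)
  simp only [Function.comp, Equiv.subRight_apply, sub_add_cancel, ← mul_assoc]
  refine mul_le_mul_of_nonneg_right ?_ (G0 w)
  have a := thw hN m0 (η *ᵥ zc w) (η *ᵥ zc x - zc r)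
  rw [show η *ᵥ zc w - (η *ᵥ zc x - zc r) = η *ᵥ zc (w - x) + zc r by
    rw [zc_sub, mulVec_sub]; abel, th_add_zc] at a
  refine (mul_le_mul (wid hM m0 _ (zc x)) a (th_nonneg _ _)
    (mul_nonneg (Real.exp_pos _).le (gs_pos _ _).le)).trans_eq ?_
  rw [cc, zc_sub, mul_add, Real.exp_add]; ring

theorem vol (hM : M.PosDef) (hN : N.PosDef) (m0 : 0 < m) (η : Matrix d I ℝ) :
    (1 - (Fintype.card I + Fintype.card d) / (m + 1)) *
      th (ex ((m / (m + 1)) • M) ((m / (m + 1)) • N) η) 0 ≤ th (ex M N η) 0 := by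
  have t0 : 0 < m / (m + 1) := by positivity
  have t1 : m / (m + 1) ≤ 1 := by rw [div_le_one (by positivity)]; linarith
  have p := posDef_ex hM hN η
  have a := (th_mono (p.smul t0) (posDef_ex (hM.smul t0) (hN.smul t0) η) (fun x => by
    simp only [qf_smul, qf_ex, mul_add, le_rfl]) 0).trans (th_scale p t0 t1 0)
  have b := one_add_mul_le_pow (a := m / (m + 1) - 1) (by linarith) (Fintype.card (I ⊕ d))
  have c : m / (m + 1) ≤ √(m / (m + 1)) := Real.le_sqrt_of_sq_le (by nlinarith)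
  rw [inv_pow, le_inv_mul_iff₀ (by positivity)] at a
  refine le_trans (mul_le_mul_of_nonneg_right ?_ (th_nonneg _ _)) a
  refine le_trans (le_of_eq ?_) (b.trans (pow_le_pow_left₀ (by linarith) (by linarith) _))
  rw [Fintype.card_sum]; push_cast; field_simp; ring

theorem mix {α τ G : (I → ℤ) → ℝ} (h : Pz α) (k : Pz τ) {B : ℝ} (G0 : ∀ w, 0 ≤ G w)
    (G1 : ∀ w, G w ≤ B) : HasSum (fun y => (∑' p, α p * τ (y - p)) * G y)
      (∑' p, α p * ∑' w, τ w * G (p + w)) := by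
  have s := sm (fun q : _ × _ => mul_nonneg (h.1 q.1) (k.1 q.2))
    (h.2.summable.mul_of_nonneg k.2.summable h.1 k.1) (fun q => G0 (q.1 + q.2)) fun _ => G1 _
  let e : (I → ℤ) × (I → ℤ) ≃ (I → ℤ) × (I → ℤ) :=
    ⟨fun q => (q.2, q.1 - q.2), fun q => (q.1 + q.2, q.1), fun q => by simp, fun q => by simp⟩
  have s2 := (e.hasSum_iff.2 s.hasSum).prod_fiberwise fun y =>
    ((e.summable_iff.2 s).prod_factor y).hasSum
  rw [s.tsum_prod] at s2
  simpa only [e, Function.comp, Equiv.coe_fn_mk, add_sub_cancel, tsum_mul_right, tsum_mul_left,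
    mul_assoc (α _) (τ _) (G (_ + _))] using s2

theorem cmp (hM : M.PosDef) (hp : M'.PosDef) (h : ∀ x, (Fintype.card I + 1) * qf M' x ≤ qf M x)
    (hs : th M'⁻¹ 0 ≤ 11 / 10) (θ : I → ℝ) (p : I → ℤ) :
    gz (M⁻¹ + M'⁻¹)⁻¹ θ p ≤ 3 * gz (cw I • M') θ p := by
  have hD := hM.inv.add hp.inv
  have hc := hp.smul (cw_pos (I := I))
  have n0 : (0 : ℝ) < Fintype.card I + 1 := by positivity
  have k1 : ∀ x, qf (M⁻¹ + M'⁻¹)⁻¹ x ≤ qf M' x := fun x => by
    have := qf_inv_anti hp.inv hD (fun x => by rw [qf_add_left]; linarith [qf_nonneg hM.inv x]) x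
    rwa [inv_inv' hp] at this
  have k2 : ∀ x, qf (cw I • M') x ≤ qf (M⁻¹ + M'⁻¹)⁻¹ x := fun x => by
    have := qf_inv_anti hD hc.inv (fun x => by
      have := qf_inv_anti (hp.smul n0) hM (fun x => by rw [qf_smul]; exact h x) x
      rw [Po.inv_smul' hp n0.ne', qf_smul] at this
      rw [qf_add_left, Po.inv_smul' hp cw_pos.ne', qf_smul,
        show (cw I)⁻¹ = (Fintype.card I + 1 : ℝ)⁻¹ + 1 by unfold cw; field_simp; ring]
      linarith) x
    rwa [inv_inv' hc] at this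
  have a1 := th_lo hD.inv (sm_anti hD.inv hp k1 hs) θ
  have a2 := dt_anti hD.inv hp k1
  have a3 := (th_scale hp cw_pos cw_le θ).trans (mul_le_mul_of_nonneg_right cw_pow (th_nonneg _ _))
  have a4 := th_up hp hs 0
  have a5 : gs (M⁻¹ + M'⁻¹)⁻¹ (zc p - θ) ≤ gs (cw I • M') (zc p - θ) :=
    Real.exp_le_exp.2 (neg_le_neg (mul_le_mul_of_nonneg_left (k2 _) Real.pi_pos.le))
  rw [gz, gz, ← mul_div_assoc, div_le_div_iff₀ (th_pos hD.inv θ) (th_pos hc θ), mul_comm 3, mul_assoc]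
  exact mul_le_mul a5 (by linarith [dt_pos hp]) (th_nonneg _ _) (gs_pos _ _).le

theorem th_wN {E : ℕ} (hE : 1024 ≤ E) (K : Matrix (Fin (wn E)) (Fin E) ℤ) :
    th (wN E K)⁻¹ 0 ≤ 2 ^ (2 * E ^ 5) := by
  have p := nf_pos (wW_pos E) K (s := 1 / 2 ^ (14 * E ^ 2)) (by positivity)
  have t0 : (0 : ℝ) < (1 / 2 ^ (7 * E ^ 2 + (4 * wn E + 3))) ^ 2 := by positivity
  rw [wN, inv_inv' p]
  refine (th_mono ((wW_pos (wn E)).smul t0) p (fun x => ?_) 0).trans ((th_scale (wW_pos _) t0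
    (pow_le_one₀ (by positivity) ((ip (Nat.zero_le _)).trans_eq (by simp))) 0).trans ?_)
  · rw [qf_smul, qf_wW, qf_nf]
    refine le_trans (le_of_eq ?_) (le_add_of_nonneg_right (qf_nonneg (wW_pos E).inv _))
    rw [pow_add]; field_simp; ring
  rw [Real.sqrt_sq (by positivity), one_div, inv_inv, ← pow_mul, Fintype.card_fin]
  refine (mul_le_mul_of_nonneg_left (th_wW _ 0) (by positivity)).trans ?_
  rw [← pow_succ]
  have a : wn E ≤ 17 * E ^ 2 := by unfold wn; nlinarith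
  have b : 7 * E ^ 2 + (4 * wn E + 3) ≤ 76 * E ^ 2 := by nlinarith
  have := Nat.mul_le_mul b a
  have : 1024 * E ^ 4 ≤ E ^ 5 := by rw [pow_succ' E 4]; exact Nat.mul_le_mul_right _ hE
  have : 0 < E ^ 4 := by positivity
  exact p2 (by nlinarith)

end Pw

open Ce Kg La Pw in
/-- **KMP** -/
theorem kmp (I : Type) [Fintype I] [DecidableEq I] : KMP I := by
  intro Mx My Ms θ θ' g ν P j Q E γ B hE hj hQ hP hx hy hs hxy hn g0 g1 ν0 ν1 γ1 γ2 H
  obtain ⟨K, η, S, -, S1, -, wt, k⟩ := kmw (kmG I) Mx My Ms θ θ' g ν P j Q E γ B hE hj hQ hP hx hy hs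
    hxy hn g0 g1 ν0 ν1 γ1 γ2 H
  have jP : 2 ^ j ≤ P := hQ.trans hP
  have P1 : 32 ≤ P := (Nat.pow_le_pow_right (by norm_num) hj : 2 ^ 5 ≤ 2 ^ j).trans jP
  have PE : 32 * P ≤ E := by
    rw [hE]; exact (Nat.mul_le_mul_right P P1).trans ((sq P).ge.trans
      (Nat.pow_le_pow_right (by omega) (by norm_num)))
  clear hE
  have j1 : j ≤ P := (Nat.lt_two_pow_self.le).trans jP
  have γ0 : 0 < γ := lt_of_lt_of_le (by positivity) γ1
  have hc := hy.smul (cw_pos (I := I))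
  have hp : (mp Mx My).PosDef := (hx.inv.add hc.inv).inv
  have hN := wN_pos E K
  obtain ⟨μ0, μ1⟩ := pz hp (θ + θ')
  have g2 : ∀ x, g x ≤ 2 ^ P * B := fun x => (g1 x).trans (by gcongr; exact ν1 x)
  obtain ⟨n, hn'⟩ : ∃ n : ℝ, n = Fintype.card I := ⟨_, rfl⟩
  have n0 : 0 ≤ n := hn' ▸ Nat.cast_nonneg _
  obtain ⟨m, hm⟩ : ∃ m : ℝ, m = (n + wn E + 1) * 2 ^ (j + 1) := ⟨_, rfl⟩
  have J1 : (1 : ℝ) ≤ 2 ^ (j + 1) := one_le_pow₀ one_le_two
  have m1 : 1 ≤ m := hm ▸ one_le_mul_of_one_le_of_one_le (by linarith [Nat.cast_nonneg (α := ℝ) (wn E)]) J1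
  have m0 : 0 < m := by linarith
  have t0 : 0 < m / (m + 1) := by positivity
  have t1 : m / (m + 1) ≤ 1 := by rw [div_le_one (by positivity)]; linarith
  have t2 : 1 / 2 ≤ m / (m + 1) := by rw [le_div_iff₀ (by positivity)]; linarith
  have hs' := hs.smul t0
  have hN' := hN.smul t0
  have v := vol hs hN m0 η
  have co := fun p => core hs hN m0 η (fun w => g0 (p + w)) fun w => g2 _
  obtain ⟨t, ht⟩ : ∃ t, t = m / (m + 1) := ⟨_, rfl⟩
  rw [← ht] at t0 t1 t2 hs' hN' v co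
  have c1 := cc1 hs' hN' η
  have C0 := th_pos (posDef_ex hs' hN' η) 0
  obtain ⟨C, hC⟩ : ∃ C, C = th (ex (t • Ms) (t • wN E K) η) 0 := ⟨_, rfl⟩
  rw [← hC] at c1 C0 v
  obtain ⟨A, hA⟩ : ∃ A, A = ∑' p, S.indicator (gz (mp Mx My) (θ + θ')) p := ⟨_, rfl⟩
  have A0 : 0 < A := hA ▸ lt_of_lt_of_le (by positivity) S1
  have i0 := Set.indicator_nonneg (s := S) fun p _ => μ0 p
  have pα : Pz fun p => S.indicator (gz (mp Mx My) (θ + θ')) p / A :=
    ⟨fun p => div_nonneg (i0 p) A0.le, by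
      have := (μ1.summable.indicator S).hasSum.div_const A
      rwa [← hA, div_self A0.ne'] at this⟩
  have pτ : Pz fun w => cc (t • Ms) (t • wN E K) η w / C :=
    ⟨fun w => div_nonneg (cc0 η w) C0.le, by
      have := c1.div_const C
      rwa [div_self C0.ne'] at this⟩
  have ge : ∀ {M : Matrix I I ℝ} {N : Matrix (Fin (wn E)) (Fin (wn E)) ℝ} (w) (c : ℝ),
      gz M 0 w * (c * th N (η *ᵥ zc w)) = cc M N η w * c / th M 0 := fun w c => by
    rw [gz, cc, sub_zero]; ring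
  have ge1 : ∀ {M : Matrix I I ℝ} {N : Matrix (Fin (wn E)) (Fin (wn E)) ℝ} (w),
      gz M 0 w * th N (η *ᵥ zc w) = cc M N η w / th M 0 := fun w => by
    rw [gz, cc, sub_zero]; ring
  have py : ∀ x, qf (mp Mx My) x ≤ qf My x := fun x => by
    have := qf_inv_anti hx.inv (hx.inv.add hc.inv) (fun x => by
      rw [qf_add_left]; linarith [qf_nonneg hc.inv x]) x
    rw [inv_inv' hx] at this
    exact this.trans (hxy x)
  have ps : ∀ x, 2 * (n + 2) * qf (mp Mx My) x ≤ qf Ms x := fun x => by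
    refine le_trans (mul_le_mul ?_ (py x) (qf_nonneg hp x) (by positivity)) (hn x)
    rw [← hn']
    exact mul_le_mul ((pow_one _).ge.trans (p2 (by omega))) (le_self_pow₀ (by linarith) (by norm_num))
      (by positivity) (by positivity)
  refine ⟨η, S, fun y => ∑' p, S.indicator (gz (mp Mx My) (θ + θ')) p / A *
    (cc (t • Ms) (t • wN E K) η (y - p) / C), S1, fun p hp => (k p hp).1, wt,
    ⟨fun y => tsum_nonneg fun p => mul_nonneg (pα.1 p) (pτ.1 _), ?_⟩, fun y => ?_, fun x x1 x2 => ?_⟩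
  · simpa only [mul_one, pτ.2.tsum_eq, pα.2.tsum_eq] using
      mix pα pτ (G := fun _ => 1) (fun _ => zero_le_one) fun _ => le_rfl
  · have z := mass hN' hs' η
    simp only [ge1, tsum_div_const, c1.tsum_eq] at z
    have T0 := th_pos hs' 0
    have u : ∀ w, cc (t • Ms) (t • wN E K) η w / C ≤ 2 ^ (2 * E ^ 5) * gz (t • Ms) 0 w := fun w => by
      have := (th_up hN' (sm_anti hN' hN (fun x => by
        rw [qf_smul]; exact mul_le_of_le_one_left (qf_nonneg hN x) t1) (th_wN (by omega) K))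
          (η *ᵥ zc w)).trans (mul_le_mul_of_nonneg_left z (by positivity))
      rw [div_le_iff₀ C0, cc, gz, sub_zero]
      exact (mul_le_mul_of_nonneg_left this (gs_pos _ _).le).trans_eq (by ring)
    have cv := conv_le hs' hp (hs.smul two_pos) (fun x => by
      rw [qf_add_left, qf_smul, qf_smul]
      nlinarith [ps x, qf_nonneg hp x, qf_nonneg hs x]) H.sm 0 (θ + θ') y
    have cm := cmp hs' hp (fun x => by
      rw [qf_smul, ← hn']
      nlinarith [ps x, qf_nonneg hp x, qf_nonneg hs x]) (sm_anti hp (hy.smul two_pos) (fun x => by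
        rw [qf_smul]; linarith [py x, qf_nonneg hy x]) H.sy) (θ + θ') y
    rw [zero_add] at cv
    have b1 : ∀ w, gz (t • Ms) 0 w ≤ 1 := fun w => (div_le_one T0).2 (gs_le_th hs' 0 w)
    have b0 := (pz hs' 0).1
    refine (hasSum_le (fun p => ?_) (sm pα.1 pα.2.summable (fun p => pτ.1 (y - p)) fun p =>
      (u _).trans (mul_le_mul_of_nonneg_left (b1 _) (by positivity))).hasSum
      ((sm μ0 μ1.summable (fun p => b0 (y - p)) fun p => b1 _).hasSum.mul_left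
        (2 ^ E ^ 5 * 2 ^ (2 * E ^ 5)))).trans ?_
    · refine (mul_le_mul (b := 2 ^ E ^ 5 * gz (mp Mx My) (θ + θ') p) ?_ (u (y - p)) (pτ.1 _)
        (mul_nonneg (by positivity) (μ0 p))).trans_eq (by ring)
      rw [div_le_iff₀ A0, mul_right_comm]
      refine (Set.indicator_le_self' (fun _ _ => μ0 _) p).trans (le_mul_of_one_le_left (μ0 p) ?_)
      rwa [← hA, div_le_iff₀' (by positivity)] at S1
    · have : 5 ≤ E ^ 5 := le_trans (by omega) (Nat.le_self_pow (by norm_num) E)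
      calc _ ≤ 2 ^ E ^ 5 * 2 ^ (2 * E ^ 5) * (2 ^ 5 * gz (cw I • mp Mx My) (θ + θ') y) :=
            mul_le_mul_of_nonneg_left (by linarith [gz_nonneg (cw I • mp Mx My) (θ + θ') y])
              (by positivity)
        _ = 2 ^ (3 * E ^ 5 + 5) * gz (cw I • mp Mx My) (θ + θ') y := by ring
        _ ≤ _ := mul_le_mul_of_nonneg_right (p2 (by omega)) (gz_nonneg _ _ _)
  rw [(mix pα pτ (G := fun y => g (y + x)) (fun _ => g0 _) fun _ => g2 _).tsum_eq]
  have Y := fun p => av pτ.1 pτ.2 (fun w => g0 (p + w + x)) fun _ => g2 _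
  refine (one_mul _).ge.trans (hasSum_le (fun p => ?_) (pα.2.mul_right _)
    (sm pα.1 pα.2.summable (fun p => (Y p).1) fun p => (Y p).2).hasSum)
  by_cases c : p ∈ S
  swap
  · simp [c]
  refine mul_le_mul_of_nonneg_left ?_ (pα.1 p)
  have a := (k p c).2
  simp only [ge, ge1, tsum_div_const, (cc1 hs hN η).tsum_eq] at a
  rw [← mul_div_assoc, div_le_div_iff_of_pos_right (th_pos hs 0)] at a
  have b := co p x fun a => round (η a ⬝ᵥ zc x)
  simp only [div_mul_eq_mul_div, tsum_div_const, add_assoc]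
  obtain ⟨e, he⟩ : ∃ e : ℝ, e = 1 / 2 ^ j := ⟨_, rfl⟩
  have e1 : e ≤ 1 / 32 := he ▸ (ip hj).trans_eq (by norm_num)
  have e0 : 0 < e := by rw [he]; positivity
  have ej : ∀ c : ℝ, c / 2 ^ j = c * e := fun c => by rw [he]; ring
  rw [ej] at a ⊢
  rw [← hn'] at x1 x2 v
  have d1 : (wn E : ℝ) + 1 ≤ 2 ^ (2 * E + 5) := by
    refine le_trans ?_ (show (2 : ℝ) ^ 5 * E ^ 2 ≤ _ from
      (mul_le_mul_of_nonneg_left (pow_le_pow_left₀ (by positivity) (lt2 E) 2)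
        (by positivity)).trans_eq (by ring))
    exact_mod_cast (by unfold wn; nlinarith : wn E + 1 ≤ 2 ^ 5 * E ^ 2)
  have m2 : m ≤ (n + 2) * 2 ^ (3 * E) :=
    calc m ≤ (n + 2) * (wn E + 1) * 2 ^ (j + 1) := by
          rw [hm]; gcongr; nlinarith [Nat.cast_nonneg (α := ℝ) (wn E)]
      _ ≤ (n + 2) * 2 ^ (2 * E + 5) * 2 ^ (j + 1) := by gcongr
      _ = (n + 2) * 2 ^ (2 * E + 5 + (j + 1)) := by ring
      _ ≤ _ := mul_le_mul_of_nonneg_left (p2 (by omega)) (by positivity)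
  have q1 : m * qf Ms (zc x) ≤ e / 16 :=
    calc _ ≤ (n + 2) * 2 ^ (3 * E) * (1 / (2 ^ (5 * E) * (n + 2))) := by
          gcongr; exact qf_nonneg hs _
      _ = 1 / 2 ^ (2 * E) := by field_simp; ring
      _ ≤ 1 / 2 ^ (j + 4) := ip (by omega)
      _ = _ := by rw [he]; ring
  have q2 : m * qf (wN E K) (η *ᵥ zc x - zc fun a => round (η a ⬝ᵥ zc x)) ≤ e / 16 :=
    calc _ ≤ (n + 2) * 2 ^ (3 * E) * (2 ^ (14 * E ^ 2) * (2 ^ (2 * E + 5) *
          (1 / (2 ^ (8 * E ^ 2) * (n + 2))) ^ 2)) := by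
          refine mul_le_mul m2 ((qf_wN E K _).trans (mul_le_mul_of_nonneg_left ?_ (by positivity)))
            (qf_nonneg hN _) (by positivity)
          refine (sum_le_card_nsmul _ _ _ fun a _ => sq_le_sq' (abs_le.1 (x1 a)).1
            (abs_le.1 (x1 a)).2).trans ?_
          rw [card_univ, Fintype.card_fin, nsmul_eq_mul]
          gcongr; linarith
      _ = 2 ^ (5 * E + 5) * (1 / 2 ^ (2 * E ^ 2)) * (1 / (n + 2)) := by field_simp; ring
      _ ≤ 2 ^ (5 * E + 5) * (1 / 2 ^ (5 * E + 5 + (j + 4))) * 1 := by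
          gcongr _ * ?_ * ?_
          · exact ip (by nlinarith)
          · rw [div_le_one (by positivity)]; linarith
      _ = _ := by rw [he]; field_simp; ring
  have v1 : (n + Fintype.card (Fin (wn E))) / (m + 1) ≤ e / 2 := by
    rw [Fintype.card_fin, div_le_iff₀ (by positivity), hm, he]
    field_simp
    nlinarith [pow_succ (2 : ℝ) j, Nat.cast_nonneg (α := ℝ) (wn E)]
  obtain ⟨r, hr⟩ : ∃ r, r = Real.pi * (m * (qf Ms (zc x) +
    qf (wN E K) (η *ᵥ zc x - zc fun a => round (η a ⬝ᵥ zc x)))) := ⟨_, rfl⟩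
  have r1 : r ≤ e / 2 := by
    rw [hr]; nlinarith [Real.pi_le_four, Real.pi_pos]
  rw [← hr] at b
  have r2 : (1 - e / 2) * Real.exp r ≤ 1 := by
    rw [← le_div_iff₀ (Real.exp_pos r), one_div, ← Real.exp_neg]
    linarith [Real.add_one_le_exp (-r)]
  have Y0 : 0 ≤ ∑' w, cc (t • Ms) (t • wN E K) η w * g (p + (w + x)) :=
    tsum_nonneg fun w => mul_nonneg (cc0 η w) (g0 _)
  rw [le_div_iff₀ C0]
  have f1 := mul_le_mul_of_nonneg_left ((mul_le_mul_of_nonneg_right (sub_le_sub_left v1 1)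
    C0.le).trans v) (show 0 ≤ (1 - 15 * e) * γ by nlinarith)
  have f2 := mul_le_mul_of_nonneg_left (f1.trans (a.trans b)) (show 0 ≤ 1 - e / 2 by linarith)
  have f3 := mul_le_mul_of_nonneg_right r2 Y0
  have f4 := mul_pos γ0 C0
  linarith [mul_nonneg (mul_nonneg (sq_nonneg e) f4.le) (show 0 ≤ 1 - e by linarith),
    mul_nonneg (sq_nonneg e) f4.le]

end Crest.Agent.N49.Wt
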