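import Crest.Agent.N49.Wt.Gc
import Crest.Agent.N49.Gw.Hol
import Crest.Agent.N49.Br.L0

/-!
# Row 49 (helper85): Gaussian cells, popular centres and witnesses after the Kelley–Meka step
-/

set_option autoImplicit false
set_option linter.unusedSectionVars false

open Matrix Finset

noncomputable section

namespace Crest.Agent.N49.Wt

open Po Br

/-- the number of witnessed frequencies -/
def wn (E : ℕ) : ℕ := E * (2 * (8 * E) + 2) + 1
/-- the first cell -/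
def wW (E : ℕ) : Matrix (Fin E) (Fin E) ℝ := ((2 : ℝ) ^ (4 * E + 3)) ^ 2 • 1
/-- the cell in the witnessed frequencies -/
def wN (E : ℕ) (K : Matrix (Fin (wn E)) (Fin E) ℤ) : Matrix (Fin (wn E)) (Fin (wn E)) ℝ :=
  (nf (wW E) K (1 / 2 ^ (14 * E ^ 2)))⁻¹

/-- the Kelley–Meka step with witnessed frequencies -/
def KMW (I : Type) [Fintype I] [DecidableEq I] : Prop :=
  ∀ (Mx My Ms : Matrix I I ℝ) (θ θ' : I → ℝ) (g ν : (I → ℤ) → ℝ) (P j Q E : ℕ) (γ B : ℝ),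
  E = P ^ 68 → 5 ≤ j → 2 ^ j ≤ Q → Q ≤ P → Mx.PosDef → My.PosDef → Ms.PosDef →
  (∀ x, qf Mx x ≤ qf My x) →
  (∀ x, 2 ^ (16 * E) * (Fintype.card I + 2) ^ 7 * qf My x ≤ qf Ms x) →
  (∀ x, 0 ≤ g x) → (∀ x, g x ≤ 2 ^ P * ν x) → (∀ x, 0 ≤ ν x) → (∀ x, ν x ≤ B) →
  1 / 2 ^ P ≤ γ → γ ≤ 2 ^ P → HK Mx My Ms θ θ' g ν P Q γ →
    ∃ (K : Matrix (Fin (wn E)) (Fin E) ℤ) (η : Matrix (Fin (wn E)) I ℝ) (S : Set (I → ℤ)),
      (∀ a l, |K a l| ≤ 2 ^ (6 * E)) ∧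
      1 / 2 ^ E ^ 5 ≤ ∑' p, S.indicator (gz (mp Mx My) (θ + θ')) p ∧
      dt (wN E K) / 2 ≤ ∑' w, gz Ms 0 w * th (wN E K) (η *ᵥ zc w) ∧
      (∀ a, 1 / 2 ^ (6 * E ^ 2) ≤ ‖∑' w, (gz Ms 0 w : ℂ) * ee (-(η a ⬝ᵥ zc w))‖ ∨ ∀ p ∈ S,
        1 / 2 ^ (6 * E ^ 2) ≤ ‖∑' w, (gz Ms 0 w : ℂ) * (g (p + w) * ee (-(η a ⬝ᵥ zc w)))‖) ∧
      ∀ p ∈ S, ∑' w, gz Ms 0 w * g (p + w) ≤ 2 ^ (6 * E ^ 2) ∧
        (1 - 15 / 2 ^ j) * γ * ∑' w, gz Ms 0 w * th (wN E K) (η *ᵥ zc w) ≤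
          ∑' w, gz Ms 0 w * (g (p + w) * th (wN E K) (η *ᵥ zc w))

theorem wW_pos (E : ℕ) : (wW E).PosDef := PosDef.one.smul (by positivity)

theorem wN_pos (E : ℕ) (K : Matrix (Fin (wn E)) (Fin E) ℤ) : (wN E K).PosDef :=
  (nf_pos (wW_pos E) K (by positivity)).inv

theorem qf_wN (E : ℕ) (K : Matrix (Fin (wn E)) (Fin E) ℤ) (x : Fin (wn E) → ℝ) :
    qf (wN E K) x ≤ 2 ^ (14 * E ^ 2) * ∑ a, x a ^ 2 := by
  have := qf_nf_inv (wW_pos E) K (s := 1 / 2 ^ (14 * E ^ 2)) (by positivity) x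
  rwa [inv_div, div_one] at this

theorem dt_wN (E : ℕ) (K : Matrix (Fin (wn E)) (Fin E) ℤ) :
    1 / 2 ^ (7 * E ^ 2 * wn E) ≤ dt (wN E K) := by
  have := dt_nf (wW_pos E) K (s := 1 / 2 ^ (14 * E ^ 2)) (by positivity)
  rwa [show (1 : ℝ) / 2 ^ (14 * E ^ 2) = (1 / 2 ^ (7 * E ^ 2)) ^ 2 by ring,
    Real.sqrt_sq (by positivity), Fintype.card_fin, div_pow, one_pow, ← pow_mul,
    show ((1 : ℝ) / 2 ^ (7 * E ^ 2)) ^ 2 = 1 / 2 ^ (14 * E ^ 2) by ring] at this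

namespace Ce

theorem p2 {a b : ℕ} (h : a ≤ b) : (2 : ℝ) ^ a ≤ 2 ^ b := pow_le_pow_right₀ one_le_two h

theorem ip {a b : ℕ} (h : a ≤ b) : (1 : ℝ) / 2 ^ b ≤ 1 / 2 ^ a :=
  one_div_le_one_div_of_le (by positivity) (p2 h)

theorem lt2 (a : ℕ) : (a : ℝ) ≤ 2 ^ a := by exact_mod_cast Nat.lt_two_pow_self.le

theorem bz2 {d : Type} [Fintype d] {R : ℝ} (L : ℕ) (h : Fintype.card d + L ≤ R) :
    bz d R ≤ 1 / 2 ^ L := by
  refine (bz_le h (Nat.cast_nonneg L)).trans ?_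
  rw [Real.exp_neg, one_div, ← Real.exp_one_pow]
  exact inv_anti₀ (by positivity) (pow_le_pow_left₀ zero_le_two
    (by linarith [Real.add_one_le_exp 1]) L)

theorem qf_wW (E : ℕ) (x : Fin E → ℝ) : qf (wW E) x = (2 ^ (4 * E + 3)) ^ 2 * ∑ a, x a ^ 2 := by
  rw [wW, qf_smul]; simp [qf, dotProduct, sq]

theorem dt_wW (E : ℕ) : dt (wW E) = 1 / 2 ^ ((4 * E + 3) * E) := by
  rw [wW, dt_smul (by positivity), Real.sqrt_sq (by positivity), dt, det_one, Real.sqrt_one,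
    inv_one, mul_one, inv_pow, ← pow_mul, Fintype.card_fin, one_div]

theorem th_wW (E : ℕ) (θ : Fin E → ℝ) : th (wW E) θ ≤ 2 := by
  have h := th_short (wW_pos E) (R := Fintype.card (Fin E) + (1 : ℕ)) fun n hn => by
    obtain ⟨a, ha⟩ := Function.ne_iff.1 hn
    have h1 : (1 : ℝ) ≤ zc n a ^ 2 := by
      rw [zc]; exact_mod_cast (one_le_sq_iff_one_le_abs _).2 (Int.one_le_abs ha)
    have h2 := single_le_sum (f := fun a => zc n a ^ 2) (fun _ _ => sq_nonneg _) (mem_univ a)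
    have h3 := lt2 (E + 1)
    have h4 : (2 : ℝ) ^ (E + 1) ≤ (2 ^ (4 * E + 3)) ^ 2 := by rw [← pow_mul]; exact p2 (by omega)
    rw [qf_wW, Fintype.card_fin]; push_cast at h3 ⊢
    nlinarith [sq_nonneg ((2 : ℝ) ^ (4 * E + 3))]
  have k := (mul_le_mul_of_nonneg_right (sub_le_sub_left (bz2 (d := Fin E) 1 le_rfl) 1)
    (th_nonneg (wW E) 0)).trans h
  linarith [th_le (wW_pos E) θ]

theorem box_wW {E : ℕ} (hE : 5 ≤ E) (k : Fin E → ℤ) (h : qf (wW E)⁻¹ (zc k) < 13 * E ^ 2)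
    (a : Fin E) : |k a| ≤ (2 ^ (6 * E) : ℕ) := by
  rw [wW, Po.inv_smul' PosDef.one (by positivity), inv_one, qf_smul, inv_mul_lt_iff₀ (by positivity),
    show qf 1 (zc k) = ∑ a, zc k a ^ 2 by simp [qf, dotProduct, sq]] at h
  have h2 := single_le_sum (f := fun a => zc k a ^ 2) (fun _ _ => sq_nonneg _) (mem_univ a)
  have h3 : (2 : ℝ) ^ (4 * E + 3) * (4 * E) ≤ 2 ^ (6 * E) :=
    calc _ ≤ (2 : ℝ) ^ (4 * E + 3) * (4 * 2 ^ E) := by gcongr; exact lt2 E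
      _ = 2 ^ (5 * E + 5) := by ring
      _ ≤ _ := p2 (by omega)
  have h4 := pow_le_pow_left₀ (by positivity) h3 2
  have : |(k a : ℝ)| ≤ 2 ^ (6 * E) := abs_le_of_sq_le_sq (by
    have : (0 : ℝ) ≤ (2 ^ (4 * E + 3)) ^ 2 * E ^ 2 := by positivity
    rw [zc] at h2; nlinarith) (by positivity)
  exact_mod_cast this

variable {X X' : Type*} {μ : X → ℝ} {σ : X' → ℝ}

theorem sm (h0 : ∀ x, 0 ≤ μ x) (h : Summable μ) {F : X → ℝ} {B : ℝ} (F0 : ∀ x, 0 ≤ F x)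
    (F1 : ∀ x, F x ≤ B) : Summable fun x => μ x * F x :=
  .of_nonneg_of_le (fun x => mul_nonneg (h0 x) (F0 x))
    (fun x => mul_le_mul_of_nonneg_left (F1 x) (h0 x)) (h.mul_right B)

theorem av (h0 : ∀ x, 0 ≤ μ x) (h : HasSum μ 1) {F : X → ℝ} {B : ℝ} (F0 : ∀ x, 0 ≤ F x)
    (F1 : ∀ x, F x ≤ B) : 0 ≤ ∑' x, μ x * F x ∧ ∑' x, μ x * F x ≤ B :=
  ⟨tsum_nonneg fun x => mul_nonneg (h0 x) (F0 x), (hasSum_le
    (fun x => mul_le_mul_of_nonneg_left (F1 x) (h0 x)) (sm h0 h.summable F0 F1).hasSum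
      (h.mul_right B)).trans_eq (one_mul B)⟩

theorem swap (h0 : ∀ x, 0 ≤ μ x) (h : Summable μ) (k0 : ∀ x, 0 ≤ σ x) (k : Summable σ)
    {F : X → X' → ℝ} {B : ℝ} (F0 : ∀ x y, 0 ≤ F x y) (F1 : ∀ x y, F x y ≤ B) :
    ∑' x, μ x * ∑' y, σ y * F x y = ∑' y, σ y * ∑' x, μ x * F x y := by
  have := (sm (fun p : X × X' => mul_nonneg (h0 p.1) (k0 p.2)) (h.mul_of_nonneg k h0 k0)
    (fun p => F0 p.1 p.2) fun p => F1 p.1 p.2).tsum_comm (f := fun x y => μ x * σ y * F x y)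
  simp only [← tsum_mul_left, ← mul_assoc]
  rw [← this]
  simp only [mul_comm (σ _)]

theorem pig (h : Summable μ) {α : Type*} {T : Finset α} (hT : T.Nonempty)
    (κ : X → α) (hκ : ∀ x, κ x ∈ T) (S : Set X) :
    ∃ K ∈ T, ∑' x, S.indicator μ x ≤ #T * ∑' x, (S ∩ {x | κ x = K}).indicator μ x := by
  classical
  obtain ⟨K, hK, k⟩ := exists_max_image T (fun K => ∑' x, (S ∩ {x | κ x = K}).indicator μ x) hT
  refine ⟨K, hK, le_trans (le_of_eq ?_) ((sum_le_card_nsmul _ _ _ k).trans_eq (nsmul_eq_mul ..))⟩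
  rw [← (hasSum_sum fun K _ => (h.indicator _).hasSum).tsum_eq]
  refine tsum_congr fun x => ?_
  rw [sum_eq_single_of_mem _ (hκ x) fun K _ c => Set.indicator_of_notMem (fun e => c e.2.symm) _]
  by_cases c : x ∈ S <;> simp [c]

variable {I : Type} [Fintype I] [DecidableEq I] {M My : Matrix I I ℝ}

theorem gc12 {μ σ ν : (I → ℤ) → ℝ} (h : Pz μ) (k : Pz σ) {B : ℝ} (ν0 : ∀ x, 0 ≤ ν x)
    (ν1 : ∀ x, ν x ≤ B) : GCz μ σ ν 1 2 = ∑' p, μ p * (∑' w, σ w * ν (p + w)) ^ 2 := by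
  have s1 := (Gw.hasSum_pi_prod (fun _ : Fin 1 => μ) fun _ => h.2.summable).summable
  have s2 := (Gw.hasSum_pi_prod (fun _ : Fin 2 => σ) fun _ => k.2.summable).summable
  have n1 : ∀ a : Fin 1 → I → ℤ, 0 ≤ ∏ i, μ (a i) := fun _ => prod_nonneg fun _ _ => h.1 _
  have n2 : ∀ a : Fin 2 → I → ℤ, 0 ≤ ∏ i, σ (a i) := fun _ => prod_nonneg fun _ _ => k.1 _
  rw [GCz, (sm (fun p : _ × _ => mul_nonneg (n1 p.1) (n2 p.2)) (s1.mul_of_nonneg s2 n1 n2)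
    (B := B * B) (fun p => prod_nonneg fun _ _ => prod_nonneg fun _ _ => ν0 _) fun p => by
      simpa using mul_le_mul (ν1 _) (ν1 _) (ν0 _) ((ν0 0).trans (ν1 0))).tsum_prod,
    ← (Equiv.funUnique (Fin 1) (I → ℤ)).symm.tsum_eq]
  refine tsum_congr fun p => ?_
  have := ((Gw.hasSum_pi_prod (fun (_ : Fin 2) w => σ w * ν (p + w)) fun _ =>
    sm k.1 k.2.summable (fun _ => ν0 _) fun _ => ν1 _).mul_left (μ p)).tsum_eq
  rw [prod_const, card_univ, Fintype.card_fin] at this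
  rw [← this]
  exact tsum_congr fun b => by simp [prod_mul_distrib, mul_assoc]

theorem pz (hM : M.PosDef) (θ : I → ℝ) : Pz (gz M θ) :=
  ⟨fun _ => div_nonneg (gs_pos _ _).le (th_nonneg _ _), by
    have := (summable_gs hM θ).hasSum.div_const (th M θ)
    rwa [show (∑' n, gs M (zc n - θ)) / th M θ = 1 from div_self (th_pos hM θ).ne'] at this⟩

/-- positivity: the mass of a centred cell -/
theorem mass {d : Type} [Fintype d] [DecidableEq d] {W : Matrix d d ℝ} (hW : W.PosDef)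
    (hM : M.PosDef) (Ξ : Matrix d I ℝ) : dt W ≤ ∑' w, gz M 0 w * th W (Ξ *ᵥ zc w) := by
  have p := th_pos hM 0
  have e := avg_th hW (pz hM 0).1 (pz hM 0).2.summable (fun w => Ξ *ᵥ zc w) (f := fun _ => 1)
    fun _ => norm_one.le
  have k : ∀ m : d → ℤ, ∑' x, (gz M 0 x : ℂ) * (1 * ee (-(zc m ⬝ᵥ Ξ *ᵥ zc x))) =
      (dt M * th M⁻¹ (-(zc m ᵥ* Ξ)) / th M 0 : ℝ) := fun m => by
    rw [Complex.ofReal_div, ← thc_zero_left hM, thc, ← tsum_div_const]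
    exact tsum_congr fun x => by rw [gz, neg_dotProduct, dotProduct_mulVec]; push_cast; ring
  simp only [k] at e
  simp only [one_mul] at e
  norm_cast at e
  rw [e]
  refine le_mul_of_one_le_right (dt_pos hW).le (le_trans (le_of_eq ?_) ((sm
    (fun m => (gs_pos _ _).le) (summable_gs hW.inv 0) (B := 1) (fun m => ?_) fun m => ?_).le_tsum 0
      fun m _ => mul_nonneg (gs_pos _ _).le ?_))
  · rw [zc_zero, sub_zero, gs_zero, zero_vecMul, neg_zero, ← th_dual hM, div_self p.ne', one_mul]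
  · exact div_nonneg (mul_nonneg (dt_pos hM).le (th_nonneg _ _)) p.le
  · rw [div_le_one p, th_dual hM]
    exact mul_le_mul_of_nonneg_left (th_le hM.inv _) (dt_pos hM).le
  · exact div_nonneg (mul_nonneg (dt_pos hM).le (th_nonneg _ _)) p.le

/-- averaging a pointwise bound over the cell -/
theorem cell {E : ℕ} (hE : 5 ≤ E) (hM : M.PosDef)
    (h : ∀ x, 2 ^ (16 * E) * (Fintype.card I + 2) ^ 7 * qf My x ≤ qf M x) (Ξ : Matrix (Fin E) I ℝ)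
    {ψ : (I → ℤ) → ℝ} {B a : ℝ} (ψ0 : ∀ w, 0 ≤ ψ w) (ψ1 : ∀ w, ψ w ≤ B) (a0 : 0 ≤ a)
    (k : ∀ w, (∀ l, fr (Ξ l) w ≤ 1 / 2 ^ (2 * E + 3)) →
      qf My (zc w) ≤ 1 / (2 ^ (12 * E) * (Fintype.card I + 2) ^ 6) → a ≤ ψ w) :
    (1 - 1 / 2 ^ E) * a * ∑' w, gz M 0 w * th (wW E) (Ξ *ᵥ zc w) ≤
      ∑' w, gz M 0 w * (ψ w * th (wW E) (Ξ *ᵥ zc w)) := by
  classical
  obtain ⟨σ0, σ1⟩ := pz hM 0
  obtain ⟨b, hb⟩ : ∃ b : (I → ℤ) → ℝ, b = fun w =>
    if qf M (zc w - 0) < Fintype.card I + (6 * E ^ 2 : ℕ) then 0 else 1 := ⟨_, rfl⟩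
  have b0 : ∀ w, 0 ≤ b w := fun w => by rw [hb]; dsimp only; split_ifs <;> simp
  have b1 : ∀ w, b w ≤ 1 := fun w => by rw [hb]; dsimp only; split_ifs <;> simp
  have t : ∑' w, gz M 0 w * b w ≤ 1 / 2 ^ (6 * E ^ 2) := by
    have := tail hM 0 _ b0 b1 fun n hn => by rw [hb]; exact if_pos hn
    simp only [gz, div_mul_eq_mul_div, tsum_div_const]
    exact (div_le_iff₀ (th_pos hM 0)).2 (this.trans
      (mul_le_mul_of_nonneg_right (bz2 _ le_rfl) (th_nonneg _ _)))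
  have E1 : (7 * E ^ 2 : ℝ) ≤ 2 ^ (4 * E) :=
    calc _ ≤ (2 : ℝ) ^ 3 * (2 ^ E) ^ 2 := by gcongr; exacts [by norm_num, lt2 E]
      _ = 2 ^ (2 * E + 3) := by ring
      _ ≤ _ := p2 (by omega)
  have E2 : (E : ℝ) ≤ E ^ 2 := by exact_mod_cast Nat.le_self_pow two_ne_zero E
  have c0 := fun w => th_nonneg (wW E) (Ξ *ᵥ zc w)
  have c1 := fun w => th_wW E (Ξ *ᵥ zc w)
  have pt : ∀ w, a * th (wW E) (Ξ *ᵥ zc w) ≤ ψ w * th (wW E) (Ξ *ᵥ zc w) +
      a * (2 * b w + 2 * (1 / 2 ^ (6 * E ^ 2))) := fun w => by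
    have q0 : (0 : ℝ) < 1 / 2 ^ (6 * E ^ 2) := by positivity
    have q1 := mul_nonneg (ψ0 w) (c0 w)
    by_cases h1 : ∀ l, fr (Ξ l) w ≤ 1 / 2 ^ (2 * E + 3)
    · by_cases h2 : qf My (zc w) ≤ 1 / (2 ^ (12 * E) * (Fintype.card I + 2) ^ 6)
      · have := mul_le_mul_of_nonneg_right (k w h1 h2) (c0 w)
        nlinarith [mul_nonneg a0 (b0 w), mul_nonneg a0 q0.le]
      · have : b w = 1 := by
          rw [hb]
          refine if_neg (not_lt.2 ?_)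
          rw [sub_zero]
          refine le_trans ?_ (h _)
          rw [not_le, div_lt_iff₀ (by positivity)] at h2
          calc _ ≤ (2 : ℝ) ^ (4 * E) * (Fintype.card I + 2) * 1 := by
                have := one_le_pow₀ (n := 4 * E) (one_le_two (α := ℝ))
                push_cast; nlinarith [Nat.cast_nonneg (α := ℝ) (Fintype.card I), sq_nonneg (E : ℝ)]
            _ ≤ 2 ^ (4 * E) * (Fintype.card I + 2) *
                (qf My (zc w) * (2 ^ (12 * E) * (Fintype.card I + 2) ^ 6)) := by gcongr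
            _ = _ := by ring
        rw [this]; nlinarith [mul_le_mul_of_nonneg_left (c1 w) a0, mul_nonneg a0 q0.le]
    · obtain ⟨l, hl⟩ := not_forall.1 h1
      have := th_far (wW_pos E) (θ := Ξ *ᵥ zc w) (R := Fintype.card (Fin E) + (6 * E ^ 2 : ℕ))
        fun n => by
          have h2 := single_le_sum (f := fun a => (zc n - Ξ *ᵥ zc w) a ^ 2)
            (fun _ _ => sq_nonneg _) (mem_univ l)
          have h3 : 1 / 2 ^ (2 * E + 3) ≤ |(zc n - Ξ *ᵥ zc w) l| := by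
            rw [Pi.sub_apply, abs_sub_comm]; exact (not_le.1 hl).le.trans (round_le _ (n l))
          have h4 := pow_le_pow_left₀ (by positivity) h3 2
          rw [sq_abs] at h4
          rw [qf_wW, Fintype.card_fin]
          calc _ ≤ (2 : ℝ) ^ (4 * E) := by push_cast; linarith
            _ = (2 ^ (4 * E + 3)) ^ 2 * (1 / 2 ^ (2 * E + 3)) ^ 2 := by field_simp; ring
            _ ≤ _ := by gcongr; exact h4.trans h2
      have z := mul_le_mul (bz2 (d := Fin E) (6 * E ^ 2) le_rfl) (th_wW E 0) (th_nonneg _ _) q0.le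
      nlinarith [mul_le_mul_of_nonneg_left (this.trans z) a0, mul_nonneg a0 (b0 w)]
  have s1 := (sm σ0 σ1.summable c0 c1).hasSum
  have s2 := (sm σ0 σ1.summable (fun w => mul_nonneg (ψ0 w) (c0 w)) fun w =>
    mul_le_mul (ψ1 w) (c1 w) (c0 w) ((ψ0 w).trans (ψ1 w))).hasSum
  have s3 := (((sm σ0 σ1.summable b0 b1).hasSum.mul_left 2).add
    (σ1.mul_right (2 * (1 / 2 ^ (6 * E ^ 2))))).mul_left a
  have r := hasSum_le (fun w => by
    linarith [mul_le_mul_of_nonneg_left (pt w) (σ0 w)]) (s1.mul_left a) (s2.add s3)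
  have z := mass (wW_pos E) hM Ξ
  have y : 4 * (1 / 2 ^ (6 * E ^ 2)) ≤ 1 / 2 ^ E * dt (wW E) := by
    rw [dt_wW, div_mul_div_comm, ← pow_add, one_mul]
    calc (4 : ℝ) * (1 / 2 ^ (6 * E ^ 2)) ≤ 4 * (1 / 2 ^ (E + (4 * E + 3) * E + 2)) := by
          gcongr 4 * ?_; exact ip (by nlinarith)
      _ = _ := by rw [pow_add _ _ 2]; field_simp; norm_num
  have x := mul_le_mul_of_nonneg_left z (show (0 : ℝ) ≤ 1 / 2 ^ E by positivity)
  nlinarith [mul_le_mul_of_nonneg_left t a0, mul_le_mul_of_nonneg_left (y.trans x) a0]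

/-- integer matrices in a box -/
theorem exists_box (m n : Type) [Fintype m] [Fintype n] (H : ℕ) : ∃ T : Finset (Matrix m n ℤ),
    (∀ K, K ∈ T ↔ ∀ a l, |K a l| ≤ H) ∧ #T = ((2 * H + 1) ^ Fintype.card n) ^ Fintype.card m := by
  classical
  refine ⟨Fintype.piFinset fun _ => Fintype.piFinset fun _ => Icc (-H : ℤ) H, fun K =>
    Fintype.mem_piFinset.trans (forall_congr' fun a => Fintype.mem_piFinset.trans
      (forall_congr' fun l => mem_Icc.trans abs_le.symm)), (Fintype.card_piFinset _).trans ?_⟩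
  rw [prod_const, Fintype.card_piFinset, prod_const, Int.card_Icc,
    show ((H : ℤ) + 1 - -H).toNat = 2 * H + 1 by omega, card_univ, card_univ]

/-- popular centres -/
theorem pop {ρ μ Φ m n : X → ℝ} (ρ0 : ∀ x, 0 ≤ ρ x) (ρ1 : HasSum ρ 1) (μ0 : ∀ x, 0 ≤ μ x)
    (μ1 : HasSum μ 1) {K L B B' c e : ℝ} (K0 : 0 < K) (B0 : 0 < B) (c0 : 0 ≤ c)
    (h : ∀ x, ρ x ≤ K * μ x) (Φ0 : ∀ x, 0 ≤ Φ x) (Φ1 : ∀ x, Φ x ≤ 2 * m x) (m1 : ∀ x, m x ≤ L * n x)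
    (n0 : ∀ x, 0 ≤ n x) (n1 : ∀ x, n x ≤ B') (L0 : 0 ≤ L) (n2 : ∑' x, μ x * n x ^ 2 ≤ 2)
    (k : c + e ≤ ∑' x, ρ x * Φ x) (he : 4 * K * L ^ 2 / B ≤ e / 2) :
    e / (4 * K * B) ≤ ∑' x, {x | m x ≤ B ∧ c ≤ Φ x}.indicator μ x := by
  have m0 : ∀ x, 0 ≤ m x := fun x => by linarith [Φ0 x, Φ1 x]
  have s1 := (sm ρ0 ρ1.summable Φ0 fun x => (Φ1 x).trans (mul_le_mul_of_nonneg_left
    ((m1 x).trans (mul_le_mul_of_nonneg_left (n1 x) L0)) zero_le_two)).hasSum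
  have s2 := (sm μ0 μ1.summable (fun x => sq_nonneg (n x)) fun x =>
    pow_le_pow_left₀ (n0 x) (n1 x) 2).hasSum.mul_left (2 * K * L ^ 2 / B)
  have s3 := (μ1.summable.indicator {x | m x ≤ B ∧ c ≤ Φ x}).hasSum.mul_left (2 * K * B)
  have r := hasSum_le (fun x => ?_) s1 (((ρ1.mul_right c).add s2).add s3)
  · have := mul_le_mul_of_nonneg_left n2 (show 0 ≤ 2 * K * L ^ 2 / B by positivity)
    rw [div_le_iff₀ (by positivity)]
    have e1 : 4 * K * L ^ 2 / B = 2 * K * L ^ 2 / B * 2 := by ring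
    linarith
  have a0 := mul_nonneg (ρ0 x) c0
  have a1 : 0 ≤ 2 * K * L ^ 2 / B * (μ x * n x ^ 2) := mul_nonneg (by positivity)
    (mul_nonneg (μ0 x) (sq_nonneg _))
  have a2 : 0 ≤ 2 * K * B * {x | m x ≤ B ∧ c ≤ Φ x}.indicator μ x :=
    mul_nonneg (by positivity) (Set.indicator_nonneg (fun _ _ => μ0 _) _)
  have a3 := mul_le_mul_of_nonneg_right (h x) (Φ0 x)
  have a4 := mul_nonneg K0.le (μ0 x)
  rcases lt_or_ge (Φ x) c with h1 | h1
  · linarith [mul_le_mul_of_nonneg_left h1.le (ρ0 x)]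
  rcases le_or_gt (m x) B with h2 | h2
  · rw [Set.indicator_of_mem (show x ∈ {x | m x ≤ B ∧ c ≤ Φ x} from ⟨h2, h1⟩)]
    linarith [mul_le_mul_of_nonneg_left ((Φ1 x).trans
      (mul_le_mul_of_nonneg_left h2 zero_le_two)) a4]
  · have : Φ x ≤ 2 * (L * n x) ^ 2 / B := by
      rw [le_div_iff₀ B0]
      nlinarith [pow_le_pow_left₀ (m0 x) (m1 x) 2, mul_le_mul (Φ1 x) h2.le B0.le
        (mul_nonneg zero_le_two (m0 x))]
    have b := mul_le_mul_of_nonneg_left this a4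
    have e1 : K * μ x * (2 * (L * n x) ^ 2 / B) = 2 * K * L ^ 2 / B * (μ x * n x ^ 2) := by ring
    linarith

end Ce

open Ce in
/-- **KMW** -/
theorem kmw {I : Type} [Fintype I] [DecidableEq I] (h : KMG I) : KMW I := by
  intro Mx My Ms θ θ' g ν P j Q E γ B hE hj hQ hP hx hy hs hxy hn g0 g1 ν0 ν1 γ1 γ2 H
  classical
  obtain ⟨ξ, ρ, ⟨ρ0, ρ1⟩, ρ2, k⟩ := h Mx My θ θ' g ν P j Q γ B (by omega) hQ hP hx hy hxy H.sy g0 g1
    ν0 ν1 γ1 γ2 H.gc H.l1 H.l2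
  have jP : 2 ^ j ≤ P := hQ.trans hP
  have P1 : 32 ≤ P := (Nat.pow_le_pow_right (by norm_num) hj : 2 ^ 5 ≤ 2 ^ j).trans jP
  have PE : 32 * P ≤ E := by
    rw [hE]; exact (Nat.mul_le_mul_right P P1).trans ((sq P).ge.trans
      (Nat.pow_le_pow_right (by omega) (by norm_num)))
  have l3 := H.l3 2 ((show 2 ≤ P by omega).trans (Nat.le_self_pow (by norm_num) P))
  subst hE
  generalize P ^ 68 = E at *
  have EE : 1024 * E ≤ E ^ 2 := by nlinarith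
  have j1 : j ≤ P := (Nat.lt_two_pow_self.le).trans jP
  obtain ⟨e, he⟩ : ∃ e : ℝ, e = 1 / 2 ^ j := ⟨_, rfl⟩
  have e0 : 1 / 2 ^ P ≤ e := he ▸ ip j1
  have e1 : e ≤ 1 / 32 := he ▸ (ip hj).trans_eq (by norm_num)
  have e2 : 1 / 2 ^ E ≤ e := he ▸ ip (by omega)
  have e3 : 0 < e := lt_of_lt_of_le (by positivity) e0
  have γ0 : 0 < γ := lt_of_lt_of_le (by positivity) γ1
  have ej : ∀ c : ℝ, c / 2 ^ j = c * e := fun c => by rw [he]; ring
  simp only [ej] at k ⊢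
  have hp : (mp Mx My).PosDef := (hx.inv.add (hy.smul (by unfold cw; positivity)).inv).inv
  obtain ⟨σ0, σ1⟩ := pz hs 0
  obtain ⟨μ0, μ1⟩ := pz hp (θ + θ')
  have g2 : ∀ x, g x ≤ 2 ^ P * B := fun x => (g1 x).trans (by gcongr; exact ν1 x)
  have c0 := fun w => th_nonneg (wW E) (of ξ *ᵥ zc w)
  have c1 := fun w => th_wW E (of ξ *ᵥ zc w)
  have gc0 : ∀ p w, 0 ≤ g (p + w) * th (wW E) (of ξ *ᵥ zc w) := fun p w => mul_nonneg (g0 _) (c0 w)
  have gc1 : ∀ p w, g (p + w) * th (wW E) (of ξ *ᵥ zc w) ≤ 2 ^ P * B * 2 := fun p w =>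
    mul_le_mul (g2 _) (c1 w) (c0 w) ((g0 0).trans (g2 0))
  have A := fun w => av ρ0 ρ1 (fun p => g0 (p + w)) fun p => g2 _
  have c := cell (by omega) hs hn (of ξ) (fun w => (A w).1) (fun w => (A w).2)
    (mul_nonneg (by linarith) γ0.le) k
  simp only [← tsum_mul_right, mul_assoc (ρ _)] at c
  rw [← swap ρ0 ρ1.summable σ0 σ1.summable gc0 gc1] at c
  have z := mass (wW_pos E) hs (of ξ)
  obtain ⟨Z, hZ⟩ : ∃ Z, Z = ∑' w, gz Ms 0 w * th (wW E) (of ξ *ᵥ zc w) := ⟨_, rfl⟩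
  rw [← hZ] at c z
  have z1 : 1 / 2 ^ (5 * E ^ 2) ≤ dt (wW E) := by rw [dt_wW]; exact ip (by nlinarith)
  have z2 : 1 / 2 ^ (2 * P + 5 * E ^ 2) ≤ e * γ * Z :=
    calc _ = (1 : ℝ) / 2 ^ P * (1 / 2 ^ P) * (1 / 2 ^ (5 * E ^ 2)) := by ring
      _ ≤ _ := by gcongr; exact z1.trans z
  have Z0 : 0 ≤ γ * Z := mul_nonneg γ0.le ((dt_pos (wW_pos E)).le.trans z)
  rw [gc12 ⟨μ0, μ1⟩ ⟨σ0, σ1⟩ ν0 ν1] at l3
  have N := fun p => av σ0 σ1 (fun w => ν0 (p + w)) fun w => ν1 _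
  have sg := fun p => sm σ0 σ1.summable (fun w => g0 (p + w)) fun w => g2 _
  have pp := pop ρ0 ρ1 μ0 μ1 (L := 2 ^ P) (B := 2 ^ (6 * E ^ 2)) (c := (1 - 14 * e) * γ * Z)
    (e := e * γ * Z) (m := fun p => ∑' w, gz Ms 0 w * g (p + w)) (by positivity) (by positivity)
    (by nlinarith) ρ2 (fun p => (av σ0 σ1 (gc0 p) (gc1 p)).1)
    (fun p => hasSum_le (fun w => by
      nlinarith [mul_le_mul_of_nonneg_left (c1 w) (mul_nonneg (σ0 w) (g0 (p + w)))])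
      (sm σ0 σ1.summable (gc0 p) (gc1 p)).hasSum ((sg p).hasSum.mul_left 2))
    (fun p => hasSum_le (fun w => by nlinarith [mul_le_mul_of_nonneg_left (g1 (p + w)) (σ0 w)])
      (sg p).hasSum ((sm σ0 σ1.summable (fun w => ν0 (p + w)) fun w => ν1 _).hasSum.mul_left _))
    (fun p => (N p).1) (fun p => (N p).2) (by positivity) l3
    (le_trans (by
      nlinarith [mul_le_mul_of_nonneg_right e2 Z0, mul_nonneg (mul_nonneg e3.le Z0)
        (show (0 : ℝ) ≤ 1 / 2 ^ E by positivity)]) c)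
    (le_trans (by
      rw [div_div, div_le_div_iff₀ (by positivity) (by positivity), one_mul]
      exact le_trans (le_of_eq (by ring)) (p2 (a := E + 8 + 4 * P + 5 * E ^ 2) (by omega)))
      (div_le_div_of_nonneg_right z2 zero_le_two))
  obtain ⟨S, hS⟩ : ∃ S, S = {p | ∑' w, gz Ms 0 w * g (p + w) ≤ 2 ^ (6 * E ^ 2) ∧
    (1 - 14 * e) * γ * Z ≤ ∑' w, gz Ms 0 w * (g (p + w) * th (wW E) (of ξ *ᵥ zc w))} := ⟨_, rfl⟩
  rw [← hS] at pp
  have W1 : ∑' w, gz Ms 0 w = 1 := σ1.tsum_eq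
  have er : (1 / 2 ^ (6 * E ^ 2) + 2 ^ (6 * E ^ 2) * (bz (Fin E) (13 * E ^ 2) + Real.pi *
      (1 / 2 ^ (14 * E ^ 2)) * wn E)) * th (wW E)⁻¹ 0 ≤ 1 / 2 ^ E * 1 := by
    have a1 : th (wW E)⁻¹ 0 ≤ 2 * 2 ^ (5 * E ^ 2) := by
      have := th_wW E 0
      rw [th_dual (wW_pos E)] at this
      have := (mul_le_mul_of_nonneg_right z1 (th_nonneg _ _)).trans this
      rwa [one_div, inv_mul_le_iff₀ (by positivity), mul_comm] at this
    have a2 := bz2 (d := Fin E) (R := 13 * E ^ 2) (12 * E ^ 2) (by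
      rw [Fintype.card_fin]; exact_mod_cast (by omega : E + 12 * E ^ 2 ≤ 13 * E ^ 2))
    have a3 : Real.pi * (1 / 2 ^ (14 * E ^ 2)) * wn E ≤ 1 / 2 ^ (12 * E ^ 2) :=
      calc _ ≤ 2 ^ 2 * (1 / 2 ^ (14 * E ^ 2)) * (2 ^ 5 * (2 ^ E) ^ 2 : ℝ) := by
            gcongr
            · linarith [Real.pi_le_four]
            · refine le_trans ?_ (show (2 : ℝ) ^ 5 * E ^ 2 ≤ _ by gcongr; exact lt2 E)
              exact_mod_cast (by unfold wn; nlinarith : wn E ≤ 2 ^ 5 * E ^ 2)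
        _ = 2 ^ (2 * E + 7) * (1 / 2 ^ (14 * E ^ 2)) := by ring
        _ ≤ 2 ^ (2 * E ^ 2) * (1 / 2 ^ (14 * E ^ 2)) := by gcongr ?_ * _; exact p2 (by omega)
        _ = _ := by field_simp; ring
    calc _ ≤ (1 / 2 ^ (6 * E ^ 2) + 2 ^ (6 * E ^ 2) * (1 / 2 ^ (12 * E ^ 2) + 1 / 2 ^ (12 * E ^ 2))) *
          (2 * 2 ^ (5 * E ^ 2) : ℝ) := by gcongr; exact th_nonneg _ _
      _ = 6 * (1 / 2 ^ E ^ 2) := by field_simp; ring
      _ ≤ 2 ^ 3 * (1 / 2 ^ (E + 3)) := by gcongr ?_ * ?_; exacts [by norm_num, ip (by omega)]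
      _ = _ := by field_simp; ring
  have R := fun p (hp : p ∈ S) => ratio' (wW_pos E) σ0 σ1.summable (fun w => of ξ *ᵥ zc w)
    (one_le_pow₀ one_le_two) (fun w => g0 (p + w)) (fun w => g2 _)
    (by rw [W1, mul_one]; exact (hS ▸ hp).1) (by positivity) (by positivity)
    (box_wW (by omega)) (L := 8 * E) (by
      rw [Fintype.card_fin]
      calc _ ≤ 2 ^ 2 * 2 ^ E * 2 ^ (6 * E) := by gcongr; exacts [le_rfl, Nat.lt_two_pow_self.le]
        _ = 2 ^ (7 * E + 2) := by ring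
        _ ≤ _ := Nat.pow_le_pow_right two_pos (by omega)) (n := wn E) (by simp [wn])
    (Λ := (1 - 14 * e) * γ) (by nlinarith) one_pos ((ip (a := 1) (by omega)).trans_eq (by norm_num))
    er (by rw [W1, mul_one, one_mul, ← hZ]; exact z) (by rw [← hZ]; exact (hS ▸ hp).2)
  choose! κ κ1 κ2 κ3 using R
  obtain ⟨T, mT, cT⟩ := exists_box (Fin (wn E)) (Fin E) (2 ^ (6 * E))
  have T0 : 0 ∈ T := (mT 0).2 fun _ _ => by simp
  obtain ⟨K, hK, pk⟩ := pig μ1.summable ⟨0, T0⟩ (fun p => if p ∈ S then κ p else 0) (fun p => by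
    split_ifs with hp
    · refine (mT _).2 fun a l => ?_
      rcases κ1 p hp a with e | e
      · simp [e]
      · exact box_wW (by omega) _ e.1 l
    · exact T0) S
  obtain ⟨S', hS'⟩ : ∃ S', S' = S ∩ {p | (if p ∈ S then κ p else 0) = K} := ⟨_, rfl⟩
  rw [← hS'] at pk
  have m' : ∀ p ∈ S', p ∈ S ∧ κ p = K := fun p hp => by
    rw [hS'] at hp; exact ⟨hp.1, (if_pos hp.1).symm.trans hp.2⟩
  have fin : 1 / 2 ^ E ^ 5 ≤ ∑' p, S'.indicator (gz (mp Mx My) (θ + θ')) p := by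
    have cT : (#T : ℝ) ≤ 2 ^ (7 * E * E * wn E) := by
      rw [cT, Fintype.card_fin, Fintype.card_fin, pow_mul _ (7 * E * E), pow_mul _ (7 * E)]
      push_cast
      gcongr
      calc _ ≤ (2 : ℝ) ^ 2 * 2 ^ (6 * E) := by linarith [one_le_pow₀ (n := 6 * E) (one_le_two (α := ℝ))]
        _ = 2 ^ (6 * E + 2) := by ring
        _ ≤ _ := p2 (by omega)
    have := (div_le_div_of_nonneg_right z2 (by positivity)).trans (pp.trans (pk.trans
      (mul_le_mul_of_nonneg_right cT (tsum_nonneg (Set.indicator_nonneg fun _ _ => μ0 _)))))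
    rw [← div_le_iff₀' (by positivity)] at this
    refine le_trans (ip (a := 2 * P + 11 * E ^ 2 + E + 7 + 7 * E * E * wn E) ?_)
      (le_trans (le_of_eq ?_) this)
    · have : wn E ≤ 17 * E ^ 2 := by unfold wn; nlinarith
      have := Nat.mul_le_mul_left (7 * E * E) this
      have : 1024 * E ^ 4 ≤ E ^ 5 := by rw [pow_succ' E 4]; exact Nat.mul_le_mul_right _ (by omega)
      have : E ^ 2 ≤ E ^ 4 := Nat.pow_le_pow_right (by omega) (by norm_num)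
      nlinarith
    · field_simp; ring
  obtain ⟨p0, hp0⟩ : S'.Nonempty := by
    by_contra c
    rw [Set.not_nonempty_iff_eq_empty.1 c] at fin
    exact absurd fin (by simp)
  obtain ⟨η, hη⟩ : ∃ η : Matrix (Fin (wn E)) I ℝ, η = K.map (Int.cast : ℤ → ℝ) * of ξ := ⟨_, rfl⟩
  have ee1 : ∀ w, K.map (Int.cast : ℤ → ℝ) *ᵥ of ξ *ᵥ zc w = η *ᵥ zc w := fun w => by
    rw [hη, mulVec_mulVec]
  have ee2 : ∀ a w, zc (K a) ⬝ᵥ of ξ *ᵥ zc w = η a ⬝ᵥ zc w := fun a w => congrFun (ee1 w) a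
  refine ⟨K, η, S', fun a l => by exact_mod_cast (mT K).1 hK a l, fin, ?_,
    fun a => ?_, fun p hp => ⟨(hS ▸ (m' p hp).1).1, ?_⟩⟩
  · have := κ2 p0 (m' p0 hp0).1
    simp only [(m' p0 hp0).2, ee1, W1] at this
    rw [wN]; linarith
  · refine or_iff_not_imp_left.2 fun c p hp => ?_
    have := κ1 p (m' p hp).1 a
    simp only [(m' p hp).2, ee2, W1, mul_one] at this
    rcases this with e | ⟨-, e | e⟩
    · refine absurd ((ip (Nat.zero_le _)).trans (le_of_eq ?_)) c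
      have : ∀ w, η a ⬝ᵥ zc w = 0 := fun w => by
        rw [← ee2, e, zc_zero, zero_dotProduct]
      simp only [this, neg_zero, ee_zero, mul_one]
      rw [← Complex.ofReal_tsum, W1]; simp
    · exact e
    · exact absurd e c
  · have := κ3 p (m' p hp).1
    simp only [(m' p hp).2, ee1] at this
    refine le_trans (mul_le_mul_of_nonneg_right ?_ (tsum_nonneg fun w =>
      mul_nonneg (σ0 w) (th_nonneg _ _))) this
    have a1 : (1 - 14 * e) * γ + 1 ≤ 2 * 2 ^ P := by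
      nlinarith [one_le_pow₀ (n := P) (one_le_two (α := ℝ))]
    have a2 : 2 * (2 * 2 ^ P) * (1 / 2 ^ E) ≤ e * γ :=
      calc _ ≤ 2 * (2 * 2 ^ P) * (1 / 2 ^ (3 * P + 2) : ℝ) := by gcongr _ * ?_; exact ip (by omega)
        _ = 1 / 2 ^ P * (1 / 2 ^ P) := by field_simp; ring
        _ ≤ _ := by gcongr
    nlinarith [mul_le_mul_of_nonneg_right a1 (show (0 : ℝ) ≤ 1 / 2 ^ E by positivity)]

end Crest.Agent.N49.Wt
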