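import Crest.Agent.N49.Po.Mas

/-!
# Row 49 (helper85): witnessed frequencies, the kept cell is again one Gaussian cell
-/

set_option autoImplicit false
set_option linter.unusedSectionVars false

open Matrix Finset

noncomputable section

namespace Crest.Agent.N49.Wt

open Po

variable {d : Type} [Fintype d]

/-- greedy choice of a dissociated family -/
theorem greedy (S : Set (d → ℤ)) (j : ℕ) : ∃ K : Fin j → d → ℤ, (∀ i, K i = 0 ∨ K i ∈ S) ∧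
    ((∀ k ∈ S, ∃ a : Fin j → ℤ, (∀ i, a i ^ 2 ≤ 1) ∧ ∑ i, a i • K i = k) ∨
      Function.Injective fun e : Fin j → Bool => ∑ i, (if e i then 1 else 0 : ℤ) • K i) := by
  induction j with
  | zero => exact ⟨fun _ => 0, fun _ => .inl rfl, .inr fun _ _ _ => Subsingleton.elim _ _⟩
  | succ j ih =>
    obtain ⟨K, h, h'⟩ := ih
    by_cases c : ∀ k ∈ S, ∃ a : Fin j → ℤ, (∀ i, a i ^ 2 ≤ 1) ∧ ∑ i, a i • K i = k
    · refine ⟨Fin.cons 0 K, Fin.cases (.inl rfl) h, .inl fun k hk => ?_⟩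
      obtain ⟨a, a1, a2⟩ := c k hk
      exact ⟨Fin.cons 0 a, Fin.cases (by simp) a1, by simpa [Fin.sum_univ_succ] using a2⟩
    have inj := h'.resolve_left c
    push Not at c
    obtain ⟨k, hk, c⟩ := c
    refine ⟨Fin.cons k K, Fin.cases (.inr hk) h, .inr fun e e' he => ?_⟩
    simp only [Fin.sum_univ_succ, Fin.cons_zero, Fin.cons_succ] at he
    have key : ∀ u v : Fin j → Bool, k + ∑ i, (if u i then 1 else 0 : ℤ) • K i ≠
        ∑ i, (if v i then 1 else 0 : ℤ) • K i := fun u v h2 =>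
      c (fun i => (if v i then 1 else 0) - (if u i then 1 else 0))
        (fun i => by split_ifs <;> simp) (by
          simp only [sub_smul, sum_sub_distrib, ← h2, add_sub_cancel_right])
    have h0 : e 0 = e' 0 := by
      cases h1 : e 0 <;> cases h2 : e' 0 <;> simp only [h1, h2] at he ⊢
      · exact absurd (by simpa using he.symm) (key (e' ·.succ) (e ·.succ))
      · exact absurd (by simpa using he) (key (e ·.succ) (e' ·.succ))
    rw [h0, add_right_inj] at he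
    have := inj he
    funext i
    exact Fin.cases h0 (fun i => congrFun this i) i

/-- a set in a box is in the `±1` span of few of its elements -/
theorem exists_span (S : Set (d → ℤ)) {H L : ℕ} (hS : ∀ k ∈ S, ∀ i, |k i| ≤ H)
    (hL : 4 * Fintype.card d * H ≤ 2 ^ L) {J : ℕ} (hJ : J = Fintype.card d * (2 * L + 2) + 1) :
    ∃ K : Fin J → d → ℤ, (∀ i, K i = 0 ∨ K i ∈ S) ∧
      ∀ k ∈ S, ∃ a : Fin J → ℤ, (∀ i, a i ^ 2 ≤ 1) ∧ ∑ i, a i • K i = k := by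
  classical
  obtain ⟨K, h, h'⟩ := greedy S J
  refine ⟨K, h, h'.resolve_right fun inj => ?_⟩
  have b : ∀ j i, |K j i| ≤ H := fun j i => by
    rcases h j with e | e
    · simp [e]
    · exact hS _ e i
  have c := card_le_card_of_injOn (s := univ)
    (t := Fintype.piFinset fun _ : d => Icc (-(J * H : ℕ) : ℤ) (J * H : ℕ))
    (fun e : Fin J → Bool => ∑ i, (if e i then 1 else 0 : ℤ) • K i) (fun e _ => by
      refine mem_coe.2 (Fintype.mem_piFinset.2 fun i => mem_Icc.2 (abs_le.1 ?_))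
      beta_reduce
      rw [Finset.sum_apply]
      refine (abs_sum_le_sum_abs _ _).trans ((sum_le_card_nsmul _ _ (H : ℤ) fun j _ => ?_).trans
        (by simp))
      split_ifs
      · simpa using b j i
      · simp) inj.injOn
  rw [Fintype.card_piFinset, prod_const, card_univ, card_univ, Int.card_Icc, Fintype.card_fun,
    Fintype.card_bool, Fintype.card_fin, show ((J * H : ℕ) + 1 - -(J * H : ℕ) : ℤ).toNat =
      2 * (J * H) + 1 by omega] at c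
  set D := Fintype.card d
  rcases Nat.eq_zero_or_pos D with h0 | h0
  · simp [hJ, h0] at c
  have l : L < 2 ^ L := Nat.lt_two_pow_self
  have k : 2 * (J * H) + 1 ≤ 2 ^ (2 * L + 2) := by
    have e : 2 ^ (2 * L + 2) = 4 * (2 ^ L * 2 ^ L) := by ring
    have j : J ≤ D * (4 * 2 ^ L) := by rw [hJ]; nlinarith
    have := Nat.mul_le_mul_right H j
    rw [e]; nlinarith
  have := c.trans (Nat.pow_le_pow_left k D)
  rw [← pow_mul, Nat.pow_le_pow_iff_right one_lt_two, hJ, mul_comm] at this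
  omega

variable [DecidableEq d]

theorem sub_lat {e : Type} [Fintype e] [DecidableEq e] {S : Matrix d d ℝ} (hS : S.PosDef)
    {B : Matrix d e ℝ} (hB : Function.Injective B.mulVec) (θ : d → ℝ) :
    gs S θ * th (Bᵀ * S * B) 0 ≤ ∑' u : e → ℤ, gs S (B *ᵥ zc u - θ) ∧
      ∑' u : e → ℤ, gs S (B *ᵥ zc u - θ) ≤ th (Bᵀ * S * B) 0 := by
  have p := posDef_conj hS hB
  rw [tsum_sub_lattice hS hB]
  refine ⟨?_, (mul_le_of_le_one_left (th_nonneg _ _) (gs_le_one hS _)).trans (th_le p _)⟩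
  refine le_trans (le_of_eq ?_) (mul_le_mul_of_nonneg_left (th_ge p _) (gs_pos _ _).le)
  have := qf_proj hS hB θ 0
  rw [mulVec_zero, zero_sub, zero_sub, qf_neg, qf_neg] at this
  rw [← mul_assoc, gs, gs, gs, ← Real.exp_add, this]
  ring_nf

/-- Gaussian masses of the fibres of an additive map -/
theorem fibre {G : Type} [AddCommGroup G] {S : Matrix d d ℝ} (hS : S.PosDef)
    (φ : (d → ℤ) →ₗ[ℤ] G) : ∃ Z : ℝ, 1 ≤ Z ∧ (∀ k, ∑' a : φ ⁻¹' {k}, gs S (zc a - 0) ≤ Z) ∧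
      ∀ a0, gs S (zc a0) * Z ≤ ∑' a : φ ⁻¹' {φ a0}, gs S (zc a - 0) := by
  obtain ⟨n, b⟩ := Submodule.basisOfPid (Pi.basisFun ℤ d) (LinearMap.ker φ)
  obtain ⟨B, hB⟩ : ∃ B : Matrix d (Fin n) ℤ, B = of fun j i => (b i).1 j := ⟨_, rfl⟩
  have li : LinearIndependent ℤ B.col := by
    have := b.linearIndependent.map' _ (LinearMap.ker φ).ker_subtype
    rw [hB]; exact this
  have inj : Function.Injective (B.map (Int.cast : ℤ → ℝ)).mulVec :=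
    mulVec_injective_iff.2 (linearIndependent_algebraMap_comp_iff.2 li)
  have e1 : ∀ u, B *ᵥ u = (b.equivFun.symm u).1 := fun u => by
    funext j; simp [hB, mulVec, dotProduct, mul_comm]
  have e2 : ∀ a0, ∑' a : φ ⁻¹' {φ a0}, gs S (zc a - 0) =
      ∑' u : Fin n → ℤ, gs S (B.map (Int.cast : ℤ → ℝ) *ᵥ zc u - -zc a0) := fun a0 => by
    have m : ∀ u, B *ᵥ u + a0 ∈ φ ⁻¹' {φ a0} := fun u => by
      have := LinearMap.mem_ker.1 (b.equivFun.symm u).2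
      rw [Set.mem_preimage, map_add, e1, this, zero_add]; rfl
    have bij : Function.Bijective fun u : Fin n → ℤ => (⟨B *ᵥ u + a0, m u⟩ : φ ⁻¹' {φ a0}) := by
      refine ⟨fun u v h => ?_, fun a => ?_⟩
      · exact mulVec_injective_iff.2 li (add_right_cancel (congrArg Subtype.val h))
      · refine ⟨b.equivFun ⟨a.1 - a0, ?_⟩, Subtype.ext ?_⟩
        · rw [LinearMap.mem_ker, map_sub, sub_eq_zero]; exact a.2
        · dsimp only
          rw [e1, LinearEquiv.symm_apply_apply, sub_add_cancel]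
    rw [← (Equiv.ofBijective _ bij).tsum_eq]
    refine tsum_congr fun u => ?_
    rw [Equiv.ofBijective_apply, sub_zero, sub_neg_eq_add, ← zc_mulVec, ← zc_add]
  refine ⟨_, one_le_th (posDef_conj hS inj), fun k => ?_, fun a0 => ?_⟩
  · by_cases h : ∃ a0, φ a0 = k
    · obtain ⟨a0, rfl⟩ := h
      exact e2 a0 ▸ (sub_lat hS inj _).2
    · have : IsEmpty (φ ⁻¹' {k}) := ⟨fun a => h ⟨a.1, a.2⟩⟩
      rw [tsum_empty]; exact th_nonneg _ _
  · rw [e2, ← gs_neg]; exact (sub_lat hS inj _).1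

/-- the dual form of the new cell -/
def nf {J : Type} [Fintype J] [DecidableEq J] (M : Matrix d d ℝ) (K : Matrix J d ℤ) (s : ℝ) :
    Matrix J J ℝ :=
  s • (1 : Matrix J J ℝ) + (K.map (Int.cast : ℤ → ℝ))ᵀᵀ * M⁻¹ * (K.map (Int.cast : ℤ → ℝ))ᵀ

variable {J : Type} [Fintype J] [DecidableEq J] {M : Matrix d d ℝ}

theorem qf_nf (K : Matrix J d ℤ) (s : ℝ) (x : J → ℝ) : qf (nf M K s) x =
    s * ∑ j, x j ^ 2 + qf M⁻¹ (x ᵥ* K.map (Int.cast : ℤ → ℝ)) := by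
  rw [nf, qf_add_left, qf_smul, qf_conj, mulVec_transpose]
  simp [qf, dotProduct, sq]

theorem nf_pos (hM : M.PosDef) (K : Matrix J d ℤ) {s : ℝ} (hs : 0 < s) : (nf M K s).PosDef := by
  refine (PosDef.one.smul hs).add_posSemidef ?_
  simpa [conjTranspose_eq_transpose_of_trivial] using
    hM.inv.posSemidef.conjTranspose_mul_mul_same (K.map (Int.cast : ℤ → ℝ))ᵀ

theorem zc_vecMul (K : Matrix J d ℤ) (a : J → ℤ) :
    zc (a ᵥ* K) = zc a ᵥ* K.map (Int.cast : ℤ → ℝ) := by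
  funext i; simp [zc, vecMul, dotProduct]

/-- dual sums of the new cell -/
theorem dual_nf (hM : M.PosDef) (K : Matrix J d ℤ) {s : ℝ} (hs : 0 < s) : ∃ Z : ℝ, 1 ≤ Z ∧
    ∀ (A : (d → ℤ) → ℂ) (B δ r : ℝ), 0 ≤ δ → (∀ k, ‖A k‖ ≤ B) →
      (∀ k, qf M⁻¹ (zc k) < r → δ ≤ ‖A k‖ → ∃ a : J → ℤ, (∀ i, a i ^ 2 ≤ 1) ∧ a ᵥ* K = k) →
      ‖∑' a : J → ℤ, (gs (nf M K s) (zc a - 0) : ℂ) * A (a ᵥ* K) -
        Z * ∑' k : d → ℤ, (gs M⁻¹ (zc k - 0) : ℂ) * A k‖ ≤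
        Z * ((δ + B * (bz d r + Real.pi * s * Fintype.card J)) * th M⁻¹ 0) := by
  have hS : (s • (1 : Matrix J J ℝ)).PosDef := PosDef.one.smul hs
  obtain ⟨Z, Z1, Z2, Z3⟩ := fibre hS K.vecMulLinear
  refine ⟨Z, Z1, fun A B δ r δ0 hA h => ?_⟩
  have B0 : 0 ≤ B := (norm_nonneg _).trans (hA 0)
  have Z0 : 0 < Z := one_pos.trans_le Z1
  obtain ⟨c, hc⟩ : ∃ c : (d → ℤ) → ℝ, c = fun k =>
    ∑' a : K.vecMulLinear ⁻¹' {k}, gs (s • (1 : Matrix J J ℝ)) (zc a - 0) := ⟨_, rfl⟩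
  have c0 : ∀ k, 0 ≤ c k := fun k => hc ▸ tsum_nonneg fun _ => (gs_pos _ _).le
  have c1 : ∀ k, c k ≤ Z := fun k => hc ▸ Z2 k
  have s1 := (summable_gs_mul (nf_pos hM K hs) 0 (f := fun a => A (a ᵥ* K))
    fun a => hA _).hasSum.tsum_fiberwise K.vecMulLinear
  have e : ∀ k, ∑' a : K.vecMulLinear ⁻¹' {k}, (gs (nf M K s) (zc a - 0) : ℂ) * A (a.1 ᵥ* K) =
      (gs M⁻¹ (zc k - 0) : ℂ) * (c k * A k) := fun k => by
    rw [hc, Complex.ofReal_tsum, ← tsum_mul_right, ← tsum_mul_left]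
    refine tsum_congr fun a => ?_
    have : a.1 ᵥ* K = k := a.2
    rw [sub_zero, sub_zero, gs, gs, gs, qf_nf, ← zc_vecMul, this, qf_smul, mul_add, neg_add,
      Real.exp_add]
    have : qf (1 : Matrix J J ℝ) (zc a.1) = ∑ j, zc a.1 j ^ 2 := by simp [qf, dotProduct, sq]
    rw [this]; push_cast; ring
  simp only [e] at s1
  have s2 := (summable_gs_mul hM.inv 0 hA).hasSum.mul_left (Z : ℂ)
  rw [← (s1.sub s2).tsum_eq]
  obtain ⟨g, hg⟩ : ∃ g : (d → ℤ) → ℝ, g = fun n => if qf M⁻¹ (zc n - 0) < r then 0 else 1 :=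
    ⟨_, rfl⟩
  have g0 : ∀ n, 0 ≤ g n := fun n => by rw [hg]; dsimp only; split_ifs <;> simp
  have g1 : ∀ n, g n ≤ 1 := fun n => by rw [hg]; dsimp only; split_ifs <;> simp
  have t := tail hM.inv 0 r g0 g1 fun n hn => by rw [hg]; exact if_pos hn
  have s3 : Summable fun n => gs M⁻¹ (zc n - 0) * g n := .of_nonneg_of_le
    (fun n => mul_nonneg (gs_pos _ _).le (g0 n))
    (fun n => mul_le_of_le_one_right (gs_pos _ _).le (g1 n)) (summable_gs hM.inv 0)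
  obtain ⟨p, hp⟩ : ∃ p, p = Real.pi * s * Fintype.card J := ⟨_, rfl⟩
  have p0 : 0 ≤ p := by rw [hp]; positivity
  have s4 := (((summable_gs hM.inv 0).hasSum.mul_right (δ + B * p)).add
    (s3.hasSum.mul_left B)).mul_left Z
  refine (tsum_of_norm_bounded s4 fun k => ?_).trans ?_
  · rw [show (gs M⁻¹ (zc k - 0) : ℂ) * (c k * A k) - Z * (gs M⁻¹ (zc k - 0) * A k) =
      -((gs M⁻¹ (zc k - 0) * (Z - c k) : ℝ) * A k) by push_cast; ring, norm_neg, norm_mul,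
      Complex.norm_real, Real.norm_of_nonneg (mul_nonneg (gs_pos _ _).le (sub_nonneg.2 (c1 k))),
      show Z * (gs M⁻¹ (zc k - 0) * (δ + B * p) + B * (gs M⁻¹ (zc k - 0) * g k)) =
        gs M⁻¹ (zc k - 0) * (Z * (δ + B * p + B * g k)) by ring, mul_assoc]
    refine mul_le_mul_of_nonneg_left ?_ (gs_pos _ _).le
    have n0 := norm_nonneg (A k)
    have b1 := mul_nonneg B0 p0
    have b2 := mul_nonneg B0 (g0 k)
    have b3 : (Z - c k) * ‖A k‖ ≤ Z * ‖A k‖ := by nlinarith [c0 k]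
    by_cases h1 : qf M⁻¹ (zc k) < r
    · rcases le_or_gt δ ‖A k‖ with h2 | h2
      · obtain ⟨a, a1, a2⟩ := h k h1 h2
        have z := Z3 a
        rw [show K.vecMulLinear a = k from a2] at z
        have z' : gs (s • (1 : Matrix J J ℝ)) (zc a) * Z ≤ c k := hc ▸ z
        have q : qf (s • (1 : Matrix J J ℝ)) (zc a) ≤ s * Fintype.card J := by
          rw [qf_smul]
          refine mul_le_mul_of_nonneg_left ?_ hs.le
          have : ∀ i, zc a i * zc a i ≤ 1 := fun i => by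
            rw [← sq, zc]; exact_mod_cast a1 i
          simpa [qf, dotProduct] using sum_le_card_nsmul univ _ 1 fun i _ => this i
        have y : 1 - p ≤ gs (s • (1 : Matrix J J ℝ)) (zc a) := by
          rw [gs, hp]
          nlinarith [Real.add_one_le_exp (-(Real.pi * qf (s • (1 : Matrix J J ℝ)) (zc a))),
            Real.pi_pos]
        have : Z - c k ≤ Z * p := by nlinarith
        calc (Z - c k) * ‖A k‖ ≤ Z * p * B :=
              mul_le_mul this (hA k) n0 (by positivity)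
          _ ≤ _ := by nlinarith
      · exact b3.trans (mul_le_mul_of_nonneg_left (by linarith) Z0.le)
    · have : g k = 1 := by rw [hg]; exact if_neg (by rwa [sub_zero])
      refine b3.trans (mul_le_mul_of_nonneg_left ?_ Z0.le)
      rw [this]; linarith [hA k]
  · refine mul_le_mul_of_nonneg_left ?_ Z0.le
    rw [← hp, ← th]
    nlinarith [mul_le_mul_of_nonneg_left t B0]

variable {X : Type*} {w : X → ℝ}

theorem avg_th (hM : M.PosDef) (hw0 : ∀ x, 0 ≤ w x) (hw : Summable w) (θ : X → d → ℝ) {f : X → ℂ}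
    {B : ℝ} (hf : ∀ x, ‖f x‖ ≤ B) : ∑' x, (w x : ℂ) * (f x * th M (θ x)) = dt M *
      ∑' m : d → ℤ, (gs M⁻¹ (zc m - 0) : ℂ) * ∑' x, (w x : ℂ) * (f x * ee (-(zc m ⬝ᵥ θ x))) := by
  simpa only [thc_zero_right, zero_sub, neg_dotProduct] using pois_avg hM hw0 hw θ 0 hf

theorem sm_wt (hw0 : ∀ x, 0 ≤ w x) (hw : Summable w) {f : X → ℂ} {B : ℝ} (hf : ∀ x, ‖f x‖ ≤ B) :
    Summable fun x => w x * ‖f x‖ :=
  .of_nonneg_of_le (fun x => mul_nonneg (hw0 x) (norm_nonneg _))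
    (fun x => mul_le_mul_of_nonneg_left (hf x) (hw0 x)) (hw.mul_right B)

/-- **WIT**: a Gaussian cell can be replaced by a Gaussian cell in few witnessed frequencies -/
theorem wit' (hM : M.PosDef) (hw0 : ∀ x, 0 ≤ w x) (hw : Summable w) (θ : X → d → ℝ) {α : Type*}
    (G : α → X → ℂ) {B0 B : ℝ} (hG : ∀ a x, ‖G a x‖ ≤ B0)
    (hB : ∀ a, ∑' x, w x * ‖G a x‖ ≤ B * ∑' x, w x) {r δ s : ℝ} (hδ : 0 ≤ δ) (hs : 0 < s)
    {H L n : ℕ} (hH : ∀ k : d → ℤ, qf M⁻¹ (zc k) < r → ∀ i, |k i| ≤ H)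
    (hL : 4 * Fintype.card d * H ≤ 2 ^ L) (hn : n = Fintype.card d * (2 * L + 2) + 1) :
    ∃ (K : Matrix (Fin n) d ℤ) (Z : ℝ), 1 ≤ Z ∧
      (∀ j, K j = 0 ∨ qf M⁻¹ (zc (K j)) < r ∧
        ∃ a, δ * ∑' x, w x ≤ ‖∑' x, (w x : ℂ) * (G a x * ee (-(zc (K j) ⬝ᵥ θ x)))‖) ∧
      ∀ a, ‖(∑' x, (w x : ℂ) * (G a x * th (nf M K s)⁻¹ (K.map (Int.cast : ℤ → ℝ) *ᵥ θ x))) /
          dt (nf M K s)⁻¹ - Z * ((∑' x, (w x : ℂ) * (G a x * th M (θ x))) / dt M)‖ ≤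
        Z * ((δ + B * (bz d r + Real.pi * s * n)) * th M⁻¹ 0 * ∑' x, w x) := by
  obtain ⟨K, K1, K2⟩ := exists_span {k | qf M⁻¹ (zc k) < r ∧
    ∃ a, δ * ∑' x, w x ≤ ‖∑' x, (w x : ℂ) * (G a x * ee (-(zc k ⬝ᵥ θ x)))‖}
    (fun k hk => hH k hk.1) hL hn
  obtain ⟨Z, Z1, h⟩ := dual_nf hM (of K) hs
  refine ⟨of K, Z, Z1, K1, fun a => ?_⟩
  have p := nf_pos hM (of K) hs
  have W0 : 0 ≤ ∑' x, w x := tsum_nonneg hw0
  have k := h (fun k => ∑' x, (w x : ℂ) * (G a x * ee (-(zc k ⬝ᵥ θ x)))) (B * ∑' x, w x)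
    (δ * ∑' x, w x) r (mul_nonneg hδ W0)
    (fun k => (tsum_of_norm_bounded (sm_wt hw0 hw (hG a)).hasSum fun x => by
      rw [norm_mul, norm_mul, norm_ee, mul_one, Complex.norm_real,
        Real.norm_of_nonneg (hw0 x)]).trans (hB a))
    fun k h1 h2 => by
      obtain ⟨b, b1, b2⟩ := K2 k ⟨h1, a, h2⟩
      exact ⟨b, b1, by rw [← b2]; funext i; simp [vecMul, dotProduct]⟩
  rw [avg_th p.inv hw0 hw _ (hG a), avg_th hM hw0 hw _ (hG a), inv_inv' p,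
    mul_div_cancel_left₀ _ (by exact_mod_cast (dt_pos p.inv).ne'),
    mul_div_cancel_left₀ _ (by exact_mod_cast (dt_pos hM).ne')]
  simp only [dotProduct_mulVec, ← zc_vecMul]
  rw [Fintype.card_fin] at k
  exact k.trans_eq (by ring)

theorem wit (hM : M.PosDef) (hw0 : ∀ x, 0 ≤ w x) (hw : Summable w) (θ : X → d → ℝ) {α : Type*}
    (G : α → X → ℂ) {B : ℝ} (hG : ∀ a x, ‖G a x‖ ≤ B) {r δ s : ℝ} (hδ : 0 ≤ δ) (hs : 0 < s)
    {H L n : ℕ} (hH : ∀ k : d → ℤ, qf M⁻¹ (zc k) < r → ∀ i, |k i| ≤ H)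
    (hL : 4 * Fintype.card d * H ≤ 2 ^ L) (hn : n = Fintype.card d * (2 * L + 2) + 1) :
    ∃ (K : Matrix (Fin n) d ℤ) (Z : ℝ), 1 ≤ Z ∧
      (∀ j, K j = 0 ∨ qf M⁻¹ (zc (K j)) < r ∧
        ∃ a, δ * ∑' x, w x ≤ ‖∑' x, (w x : ℂ) * (G a x * ee (-(zc (K j) ⬝ᵥ θ x)))‖) ∧
      ∀ a, ‖(∑' x, (w x : ℂ) * (G a x * th (nf M K s)⁻¹ (K.map (Int.cast : ℤ → ℝ) *ᵥ θ x))) /
          dt (nf M K s)⁻¹ - Z * ((∑' x, (w x : ℂ) * (G a x * th M (θ x))) / dt M)‖ ≤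
        Z * ((δ + B * (bz d r + Real.pi * s * n)) * th M⁻¹ 0 * ∑' x, w x) :=
  wit' hM hw0 hw θ G hG (fun a => hasSum_le (fun x => mul_comm B _ ▸
    mul_le_mul_of_nonneg_left (hG a x) (hw0 x)) (sm_wt hw0 hw (hG a)).hasSum
      (hw.hasSum.mul_left B)) hδ hs hH hL hn

theorem dt_anti {M' : Matrix d d ℝ} (hM : M.PosDef) (hM' : M'.PosDef) (h : ∀ x, qf M x ≤ qf M' x) :
    dt M' ≤ dt M := by
  rw [← integral_gs_real hM, ← integral_gs_real hM']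
  exact MeasureTheory.integral_mono (integrable_gs hM') (integrable_gs hM) fun x =>
    Real.exp_le_exp.2 (neg_le_neg (mul_le_mul_of_nonneg_left (h _) Real.pi_pos.le))

/-- the new cell is wider than the standard cell of width `√s` -/
theorem qf_nf_inv (hM : M.PosDef) (K : Matrix J d ℤ) {s : ℝ} (hs : 0 < s) (x : J → ℝ) :
    qf (nf M K s)⁻¹ x ≤ s⁻¹ * ∑ j, x j ^ 2 := by
  have p := nf_pos hM K hs
  obtain ⟨y, hy⟩ : ∃ y, y = (nf M K s)⁻¹ *ᵥ x := ⟨_, rfl⟩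
  have e1 : qf (nf M K s)⁻¹ x = ∑ j, x j * y j := by rw [hy]; rfl
  have e2 : qf (nf M K s) y = ∑ j, x j * y j := by
    rw [qf, hy, mulVec_mulVec, mul_nonsing_inv _ p.det_pos.ne'.isUnit, one_mulVec,
      dotProduct_comm]; rfl
  have h1 := qf_nf (M := M) K s y
  have h2 := qf_nonneg hM.inv (y ᵥ* K.map (Int.cast : ℤ → ℝ))
  have h3 : 2 * s * ∑ j, x j * y j ≤ ∑ j, x j ^ 2 + s * (s * ∑ j, y j ^ 2) := by
    simp only [mul_sum, ← sum_add_distrib]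
    exact sum_le_sum fun j _ => by nlinarith [sq_nonneg (x j - s * y j)]
  rw [e1, inv_mul_eq_div, le_div_iff₀ hs]
  nlinarith

theorem dt_nf (hM : M.PosDef) (K : Matrix J d ℤ) {s : ℝ} (hs : 0 < s) :
    √s ^ Fintype.card J ≤ dt (nf M K s)⁻¹ := by
  have := dt_anti (nf_pos hM K hs).inv (PosDef.one.smul (inv_pos.2 hs)) fun x =>
    (qf_nf_inv hM K hs x).trans_eq (by rw [qf_smul]; simp [qf, dotProduct, sq])
  rwa [dt_smul (inv_pos.2 hs).le, Real.sqrt_inv, inv_inv, dt, det_one, Real.sqrt_one, inv_one,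
    mul_one] at this

/-- **WIT**, ratio form -/
theorem ratio' (hM : M.PosDef) (hw0 : ∀ x, 0 ≤ w x) (hw : Summable w) (θ : X → d → ℝ) {F : X → ℝ}
    {B0 B : ℝ} (B1 : 1 ≤ B) (F0 : ∀ x, 0 ≤ F x) (F1 : ∀ x, F x ≤ B0)
    (F2 : ∑' x, w x * F x ≤ B * ∑' x, w x) {r δ s : ℝ} (hδ : 0 ≤ δ)
    (hs : 0 < s) {H L n : ℕ} (hH : ∀ k : d → ℤ, qf M⁻¹ (zc k) < r → ∀ i, |k i| ≤ H)
    (hL : 4 * Fintype.card d * H ≤ 2 ^ L) (hn : n = Fintype.card d * (2 * L + 2) + 1)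
    {Λ μ η : ℝ} (Λ0 : 0 ≤ Λ) (μ1 : 0 < μ) (η1 : η ≤ 1 / 2)
    (hη : (δ + B * (bz d r + Real.pi * s * n)) * th M⁻¹ 0 ≤ η * μ)
    (hμ : μ * dt M * ∑' x, w x ≤ ∑' x, w x * th M (θ x))
    (h : Λ * ∑' x, w x * th M (θ x) ≤ ∑' x, w x * (F x * th M (θ x))) :
    ∃ K : Matrix (Fin n) d ℤ,
      (∀ j, K j = 0 ∨ qf M⁻¹ (zc (K j)) < r ∧
        (δ * ∑' x, w x ≤ ‖∑' x, (w x : ℂ) * (F x * ee (-(zc (K j) ⬝ᵥ θ x)))‖ ∨
          δ * ∑' x, w x ≤ ‖∑' x, (w x : ℂ) * ee (-(zc (K j) ⬝ᵥ θ x))‖)) ∧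
      μ / 2 * dt (nf M K s)⁻¹ * ∑' x, w x ≤
        ∑' x, w x * th (nf M K s)⁻¹ (K.map (Int.cast : ℤ → ℝ) *ᵥ θ x) ∧
      (Λ - 2 * (Λ + 1) * η) * ∑' x, w x * th (nf M K s)⁻¹ (K.map (Int.cast : ℤ → ℝ) *ᵥ θ x) ≤
        ∑' x, w x * (F x * th (nf M K s)⁻¹ (K.map (Int.cast : ℤ → ℝ) *ᵥ θ x)) := by
  have W0 : 0 ≤ ∑' x, w x := tsum_nonneg hw0
  obtain ⟨K, Z, Z1, K1, k⟩ := wit' hM hw0 hw θ (fun (a : Bool) x => if a then (F x : ℂ) else 1)
    (B0 := max B0 1) (B := B) (fun a x => by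
      cases a
      · simp
      · simpa [abs_of_nonneg (F0 x)] using .inl (F1 x)) (fun a => by
      cases a
      · simpa using le_mul_of_one_le_left W0 B1
      · simpa [abs_of_nonneg (F0 _)] using F2) hδ hs hH hL hn
  have k1 := k true
  have k2 := k false
  simp only [if_true, Bool.false_eq_true, if_false, one_mul] at k1 k2
  norm_cast at k1 k2
  rw [Real.norm_eq_abs, abs_le] at k1 k2
  have p := dt_pos hM
  have p' := dt_pos (nf_pos hM K hs).inv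
  have η0 : 0 ≤ η * μ := le_trans (mul_nonneg (add_nonneg hδ (mul_nonneg (by linarith)
    (add_nonneg (bz_pos _).le (by positivity)))) (th_nonneg _ _)) hη
  rw [mul_right_comm, ← le_div_iff₀ p] at hμ
  have h' := div_le_div_of_nonneg_right h p.le
  rw [mul_div_assoc] at h'
  generalize (∑' x, w x * th M (θ x)) / dt M = b at *
  generalize (∑' x, w x * (F x * th M (θ x))) / dt M = a at *
  have Z0 : 0 ≤ Z := by linarith
  have e := mul_le_mul_of_nonneg_left (mul_le_mul_of_nonneg_right hη W0) Z0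
  have m0 := mul_nonneg μ1.le W0
  have f1 := mul_le_mul_of_nonneg_left hμ Z0
  have f2 := mul_le_mul_of_nonneg_left h' Z0
  have f3 := mul_le_mul_of_nonneg_left (mul_le_mul_of_nonneg_right η1 m0) Z0
  have f4 := le_mul_of_one_le_left m0 Z1
  obtain ⟨b', hb⟩ : ∃ b', b' = (∑' x, w x * th (nf M K s)⁻¹ (K.map (Int.cast : ℤ → ℝ) *ᵥ θ x)) /
    dt (nf M K s)⁻¹ := ⟨_, rfl⟩
  rw [← hb] at k2
  have g1 : Z * (μ * ∑' x, w x) ≤ 2 * b' := by nlinarith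
  refine ⟨K, fun j => (K1 j).imp_right fun c => ⟨c.1, ?_⟩, ?_, ?_⟩
  · obtain ⟨a, ha⟩ := c.2
    cases a
    · exact .inr (by simpa using ha)
    · exact .inl (by simpa using ha)
  · rw [mul_right_comm, ← le_div_iff₀ p', ← hb]; linarith
  · rw [← div_le_div_iff_of_pos_right p', mul_div_assoc, ← hb]
    have η2 : 0 ≤ η := nonneg_of_mul_nonneg_left η0 μ1
    have g2 := mul_le_mul_of_nonneg_left g1 η2
    have g3 := mul_le_mul_of_nonneg_left (k2.2.trans e) Λ0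
    have g4 := mul_le_mul_of_nonneg_left g2 Λ0
    nlinarith

theorem ratio (hM : M.PosDef) (hw0 : ∀ x, 0 ≤ w x) (hw : Summable w) (θ : X → d → ℝ) {F : X → ℝ}
    {B : ℝ} (B1 : 1 ≤ B) (F0 : ∀ x, 0 ≤ F x) (F1 : ∀ x, F x ≤ B)
    {r δ s : ℝ} (hδ : 0 ≤ δ)
    (hs : 0 < s) {H L n : ℕ} (hH : ∀ k : d → ℤ, qf M⁻¹ (zc k) < r → ∀ i, |k i| ≤ H)
    (hL : 4 * Fintype.card d * H ≤ 2 ^ L) (hn : n = Fintype.card d * (2 * L + 2) + 1)
    {Λ μ η : ℝ} (Λ0 : 0 ≤ Λ) (μ1 : 0 < μ) (η1 : η ≤ 1 / 2)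
    (hη : (δ + B * (bz d r + Real.pi * s * n)) * th M⁻¹ 0 ≤ η * μ)
    (hμ : μ * dt M * ∑' x, w x ≤ ∑' x, w x * th M (θ x))
    (h : Λ * ∑' x, w x * th M (θ x) ≤ ∑' x, w x * (F x * th M (θ x))) :
    ∃ K : Matrix (Fin n) d ℤ,
      (∀ j, K j = 0 ∨ qf M⁻¹ (zc (K j)) < r ∧
        (δ * ∑' x, w x ≤ ‖∑' x, (w x : ℂ) * (F x * ee (-(zc (K j) ⬝ᵥ θ x)))‖ ∨
          δ * ∑' x, w x ≤ ‖∑' x, (w x : ℂ) * ee (-(zc (K j) ⬝ᵥ θ x))‖)) ∧
      μ / 2 * dt (nf M K s)⁻¹ * ∑' x, w x ≤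
        ∑' x, w x * th (nf M K s)⁻¹ (K.map (Int.cast : ℤ → ℝ) *ᵥ θ x) ∧
      (Λ - 2 * (Λ + 1) * η) * ∑' x, w x * th (nf M K s)⁻¹ (K.map (Int.cast : ℤ → ℝ) *ᵥ θ x) ≤
        ∑' x, w x * (F x * th (nf M K s)⁻¹ (K.map (Int.cast : ℤ → ℝ) *ᵥ θ x)) :=
  ratio' hM hw0 hw θ B1 F0 F1 (hasSum_le (fun x => mul_comm B _ ▸
    mul_le_mul_of_nonneg_left (F1 x) (hw0 x)) (Summable.of_nonneg_of_le
      (fun x => mul_nonneg (hw0 x) (F0 x)) (fun x => mul_le_mul_of_nonneg_left (F1 x) (hw0 x))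
      (hw.mul_right B)).hasSum (hw.hasSum.mul_left B)) hδ hs hH hL hn Λ0 μ1 η1 hη hμ h

end Crest.Agent.N49.Wt
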